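import Mathlib

/-!
The Riesz kernel `|x| ^ (-α)` on the line, averaged along affine functions of `t ∈ [0,1]`.
-/

open MeasureTheory Filter Topology Set Metric
open scoped ENNReal NNReal

namespace Vale.Agent.P127

noncomputable section

/-- `|x| ^ (-α)`, with the value `⊤` at `0`. -/
def ker (α : ℝ) (x : ℝ) : ℝ≥0∞ := ENNReal.ofReal |x| ^ (-α)

lemma measurable_ker (α : ℝ) : Measurable (ker α) := by unfold ker; fun_prop

lemma ker_zero {α : ℝ} (hα : 0 < α) : ker α 0 = ⊤ := by
  simp [ker, ENNReal.zero_rpow_of_neg (neg_neg_of_pos hα)]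

lemma ker_mul (α : ℝ) (x y : ℝ) : ker α (x * y) = ker α x * ker α y := by
  rw [ker, abs_mul, ENNReal.ofReal_mul (abs_nonneg _)]
  exact ENNReal.mul_rpow_of_ne_top ENNReal.ofReal_ne_top ENNReal.ofReal_ne_top _

lemma edist_eq_ofReal (x y : ℝ) : edist x y = ENNReal.ofReal |x - y| := by
  rw [edist_dist, Real.dist_eq]

/-- Bound for the average of the kernel along affine functions. -/
def kerConst (α : ℝ) : ℝ≥0∞ := 1 + ∫⁻ x in ball (0 : ℝ) 1, ker α x

lemma kerConst_ne_zero (α : ℝ) : kerConst α ≠ 0 := by simp [kerConst]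

lemma kerConst_ne_top {α : ℝ} (hα0 : 0 < α) (hα1 : α < 1) : kerConst α ≠ ⊤ := by
  have hint : IntegrableOn (fun x : ℝ => |x| ^ (-α)) (ball 0 1) :=
    integrableOn_ball_of_norm_le_rpow (by simp) (by simpa using hα1) (C := 1) (α := α)
      (Eventually.of_forall fun x => by
        simp only [one_mul, Real.norm_eq_abs]
        rw [abs_of_nonneg (Real.rpow_nonneg (abs_nonneg _) _)])
      ((continuous_abs.measurable.pow_const _).aestronglyMeasurable)
  refine ENNReal.add_ne_top.2 ⟨ENNReal.one_ne_top, ?_⟩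
  have : ∫⁻ x in ball (0 : ℝ) 1, ker α x = ∫⁻ x in ball (0 : ℝ) 1, ENNReal.ofReal (|x| ^ (-α)) := by
    refine lintegral_congr_ae (ae_restrict_of_ae ?_)
    filter_upwards [compl_mem_ae_iff.2 (measure_singleton (0 : ℝ))] with x hx
    exact ENNReal.ofReal_rpow_of_pos (abs_pos.2 hx)
  rw [this]
  exact (hint.lintegral_lt_top).ne

lemma ker_le {α : ℝ} (hα : 0 ≤ α) (x : ℝ) :
    ker α x ≤ 1 + (ball (0 : ℝ) 1).indicator (ker α) x := by
  by_cases hx : x ∈ ball (0 : ℝ) 1
  · rw [indicator_of_mem hx]; exact le_add_self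
  · rw [indicator_of_notMem hx, add_zero, ker]
    rw [ENNReal.rpow_neg, ENNReal.inv_le_one]
    calc (1 : ℝ≥0∞) = 1 ^ α := (ENNReal.one_rpow _).symm
      _ ≤ ENNReal.ofReal |x| ^ α :=
        ENNReal.rpow_le_rpow (ENNReal.one_le_ofReal.2 (by simpa using hx)) hα

theorem lintegral_ker_affine_le {α : ℝ} (hα : 0 < α) (d e : ℝ) :
    ∫⁻ t in Icc (0 : ℝ) 1, ker α (t * d + e) ≤ kerConst α * ker α d := by
  rcases eq_or_ne d 0 with rfl | hd
  · rw [ker_zero hα, ENNReal.mul_top (kerConst_ne_zero α)]; exact le_top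
  have h1 : ∀ t : ℝ, ker α (t * d + e) = ker α d * ker α (t + e / d) := fun t => by
    rw [← ker_mul]; congr 1; field_simp
  simp only [h1]
  rw [lintegral_const_mul _ (f := fun t => ker α (t + e / d))
    ((measurable_ker α).comp (measurable_add_const _)), mul_comm]
  gcongr
  calc ∫⁻ t in Icc (0 : ℝ) 1, ker α (t + e / d)
      ≤ ∫⁻ t in Icc (0 : ℝ) 1, (1 + (ball (0 : ℝ) 1).indicator (ker α) (t + e / d)) :=
        lintegral_mono fun t => ker_le hα.le _
    _ = 1 + ∫⁻ t in Icc (0 : ℝ) 1, (ball (0 : ℝ) 1).indicator (ker α) (t + e / d) := by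
        rw [lintegral_add_left measurable_const, setLIntegral_const, Real.volume_Icc]; simp
    _ ≤ 1 + ∫⁻ t, (ball (0 : ℝ) 1).indicator (ker α) (t + e / d) := by
        exact add_le_add_right (setLIntegral_le_lintegral _ _) _
    _ = kerConst α := by
        rw [lintegral_add_right_eq_self (fun t => (ball (0 : ℝ) 1).indicator (ker α) t) (e / d),
          lintegral_indicator measurableSet_ball, kerConst]

lemma lintegral_ker_sub_le {α : ℝ} (hα : 0 < α) (u : ℝ) :
    ∫⁻ w in Icc (0 : ℝ) 1, ker α (u - w) ≤ kerConst α := by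
  have h := lintegral_ker_affine_le hα (-1) u
  rw [show ker α (-1) = 1 by simp [ker], mul_one] at h
  simpa [sub_eq_neg_add] using h

end

end Vale.Agent.P127
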