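import Vale.Agent.P127.Triangular

/-!
Full Hausdorff dimension of Kakeya sets with a triangular choice of base points.
-/

open MeasureTheory Filter Topology Set Metric
open scoped ENNReal NNReal

namespace Vale.Agent.P127

/-- A set containing segments in all directions of a cube of slopes, placed by a triangular
measurable rule in some linear coordinates, has full Hausdorff dimension. -/
theorem dimH_eq_of_triangular_segments {m : ℕ}
    (L : (ℝ × (Fin m → ℝ)) ≃L[ℝ] EuclideanSpace ℝ (Fin (m + 1)))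
    (a : (Fin m → ℝ) → Fin m → ℝ) (ha : Measurable a) (htri : Triangular a)
    (K : Set (EuclideanSpace ℝ (Fin (m + 1))))
    (hK : ∀ v ∈ cube m, ∀ t ∈ Icc (0 : ℝ) 1, L (t, t • v + a v) ∈ K) :
    dimH K = (m + 1 : ℕ) := by
  refine le_antisymm ((dimH_mono (subset_univ K)).trans (by
    rw [Real.dimH_univ_eq_finrank, finrank_euclideanSpace_fin])) ?_
  have hslice := ae_dimH_slice m Unit (Measure.dirac ()) (fun _ => a)
    (ha.comp measurable_snd) (fun _ => htri)
  let S : Set (ℝ × (Fin m → ℝ)) := L ⁻¹' K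
  let G : Set ℝ := {t | t ∈ Icc (0 : ℝ) 1 ∧
    (m : ℝ≥0∞) ≤ dimH ((fun v => t • v + a v) '' cube m)}
  have hG : volume.restrict (Icc (0 : ℝ) 1) G ≠ 0 := by
    intro h0
    have h1 : ∀ᵐ t ∂(volume.restrict (Icc (0 : ℝ) 1)), t ∈ G := by
      filter_upwards [hslice, ae_restrict_mem measurableSet_Icc] with t ht htI
      exact ⟨htI, by simpa [ae_dirac_eq] using ht⟩
    have h2 : ∀ᵐ t ∂(volume.restrict (Icc (0 : ℝ) 1)), False := by
      filter_upwards [h1, measure_eq_zero_iff_ae_notMem.1 h0] with t a b using b a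
    rw [eventually_false_iff_eq_bot, ae_eq_bot] at h2
    simpa [Real.volume_Icc] using congrArg (fun μ : Measure ℝ => μ univ) h2
  have hsub : ∀ t ∈ G, (fun v => t • v + a v) '' cube m ⊆ {y | (t, y) ∈ S} := by
    rintro t ⟨ht, -⟩ _ ⟨v, hv, rfl⟩
    exact hK v hv t ht
  have hν : ∀ U : Set ℝ, volume.restrict (Icc (0 : ℝ) 1) U ≤ 1 * ediam U ^ ((1 : ℝ≥0) : ℝ) :=
    fun U => by
      rw [one_mul, NNReal.coe_one, ENNReal.rpow_one]
      exact (Measure.restrict_apply_le _ _).trans (Real.volume_le_diam U)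
  have h := le_dimH_of_fibres (volume.restrict (Icc (0 : ℝ) 1)) (α := 1) (β := (m : ℝ≥0))
    ENNReal.one_ne_top hν S G hG (fun t ht => ((cube_nonempty m).image _).mono (hsub t ht))
    (fun t ht => by simpa using ht.2.trans (dimH_mono (hsub t ht)))
  rw [L.dimH_preimage] at h
  simpa [add_comm] using h

end Vale.Agent.P127
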