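import Vale.Agent.P127.Slicing
import Vale.Agent.P127.Kernel

/-!
Kakeya sets with a triangular choice of base points.
-/

open MeasureTheory Filter Topology Set Metric
open scoped ENNReal NNReal

namespace Vale.Agent.P127

/-- The unit cube. -/
def cube (m : ℕ) : Set (Fin m → ℝ) := {v | ∀ i, v i ∈ Icc (0 : ℝ) 1}

/-- The `i`-th coordinate depends only on the coordinates `j ≤ i` of the argument. -/
def Triangular {m : ℕ} (a : (Fin m → ℝ) → Fin m → ℝ) : Prop :=
  ∀ v w i, (∀ j ≤ i, v j = w j) → a v i = a w i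

lemma cube_nonempty (m : ℕ) : (cube m).Nonempty := ⟨0, fun _ => by simp⟩

/-- An `α`-Frostman measure on the image of a set from a bounded potential. -/
lemma map_le_of_potential {α : ℝ} (hα : 0 < α) {g : ℝ → ℝ} (hg : Measurable g) {P : Set ℝ}
    {M : ℝ≥0∞} (hMt : M ≠ ⊤) (hP : ∀ u ∈ P, ∫⁻ w in Icc (0 : ℝ) 1, ker α (g u - g w) ≤ M)
    (hPI : P ⊆ Icc 0 1) (U : Set ℝ) :
    (volume.restrict P).map g U ≤ (M + 1) * ediam U ^ α := by
  refine (measure_mono subset_closure).trans ?_
  rw [← Metric.ediam_closure U]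
  set V := closure U
  set d := ediam V with hd
  rw [Measure.map_apply hg isClosed_closure.measurableSet,
    Measure.restrict_apply (hg isClosed_closure.measurableSet)]
  set A := g ⁻¹' V ∩ P with hA
  rcases A.eq_empty_or_nonempty with h | ⟨u, huV, huP⟩
  · simp [h]
  rcases eq_or_ne d ⊤ with hdt | hdt
  · rw [hdt, ENNReal.top_rpow_of_pos hα, ENNReal.mul_top (by simp)]; exact le_top
  have hle : ∀ w ∈ A, d ^ (-α) ≤ ker α (g u - g w) := fun w hw => by
    rw [ker, ← edist_eq_ofReal, ENNReal.rpow_neg, ENNReal.rpow_neg]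
    exact ENNReal.inv_le_inv.2
      (ENNReal.rpow_le_rpow (Metric.edist_le_ediam_of_mem huV hw.1) hα.le)
  have h1 : d ^ (-α) * volume A ≤ M := by
    calc d ^ (-α) * volume A = ∫⁻ _ in A, d ^ (-α) := (setLIntegral_const _ _).symm
      _ ≤ ∫⁻ w in A, ker α (g u - g w) :=
        setLIntegral_mono ((measurable_ker α).comp (measurable_const.sub hg)) hle
      _ ≤ ∫⁻ w in Icc (0 : ℝ) 1, ker α (g u - g w) :=
        lintegral_mono_set (inter_subset_right.trans hPI)
      _ ≤ M := hP u huP
  rcases eq_or_ne d 0 with hd0 | hd0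
  · rw [hd0, ENNReal.zero_rpow_of_neg (by linarith)] at h1
    by_contra h
    exact absurd h1 (not_le.2 (by
      rw [ENNReal.top_mul (fun h0 => h (by simp [h0]))]
      exact hMt.lt_top))
  · rw [ENNReal.rpow_neg, ENNReal.inv_mul_le_iff
      (fun h => hd0 (ENNReal.rpow_eq_zero_iff_of_pos hα |>.1 h))
      (ENNReal.rpow_ne_top_of_nonneg hα.le hdt)] at h1
    refine h1.trans ?_
    rw [mul_comm]
    gcongr
    exact le_self_add

theorem ae_dimH_slice : ∀ (m : ℕ) (X : Type) [MeasurableSpace X] (μ : Measure X)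
    [IsFiniteMeasure μ] (a : X → (Fin m → ℝ) → Fin m → ℝ),
    Measurable (fun p : X × (Fin m → ℝ) => a p.1 p.2) → (∀ x, Triangular (a x)) →
    ∀ᵐ t ∂(volume.restrict (Icc (0 : ℝ) 1)), ∀ᵐ x ∂μ,
      (m : ℝ≥0∞) ≤ dimH ((fun v => t • v + a x v) '' cube m) := by
  intro m
  induction m with
  | zero => intros; simp
  | succ m ih =>
    intro X _ μ _ a ha htri
    let I : Measure ℝ := volume.restrict (Icc (0 : ℝ) 1)
    haveI : IsFiniteMeasure I := ⟨by simp [I, Real.volume_Icc]⟩
    let a₁ : X → ℝ → ℝ := fun x u => a x (Fin.cons u 0) 0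
    have ha₁ : Measurable (fun p : X × ℝ => a₁ p.1 p.2) :=
      (measurable_pi_apply 0).comp (ha.comp (measurable_fst.prodMk
        (measurable_pi_iff.2 fun i => by
          refine Fin.cases ?_ (fun j => ?_) i
          · exact measurable_snd
          · exact measurable_const)))
    let b : X × ℝ → (Fin m → ℝ) → Fin m → ℝ := fun p v i => a p.1 (Fin.cons p.2 v) i.succ
    have hb : Measurable (fun q : (X × ℝ) × (Fin m → ℝ) => b q.1 q.2) :=
      measurable_pi_iff.2 fun i => (measurable_pi_apply i.succ).comp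
        (ha.comp ((measurable_fst.comp measurable_fst).prodMk
          (measurable_pi_iff.2 fun j => by
            refine Fin.cases ?_ (fun k => ?_) j
            · exact measurable_snd.comp measurable_fst
            · exact (measurable_pi_apply k).comp measurable_snd)))
    have hbtri : ∀ p, Triangular (b p) := fun p v w i hvw =>
      htri p.1 _ _ i.succ fun j hj => by
        induction j using Fin.cases with
        | zero => simp
        | succ k => simpa using hvw k (Fin.succ_le_succ_iff.1 hj)
    have hfirst : ∀ x u v, a x (Fin.cons u v) 0 = a₁ x u := fun x u v =>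
      htri x _ _ 0 fun j hj => by simp [Fin.le_zero_iff.1 hj]
    have hrest := ih (X × ℝ) (μ.prod I) b hb hbtri
    -- energy
    have henergy : ∀ α : ℝ≥0, 0 < α → α < 1 → ∀ᵐ t ∂I, ∀ᵐ x ∂μ, ∀ᵐ u ∂I,
        ∫⁻ w, ker α ((t * u + a₁ x u) - (t * w + a₁ x w)) ∂I < ⊤ := by
      intro α h0 h1
      let F : ℝ → X × ℝ × ℝ → ℝ≥0∞ := fun t p =>
        ker α ((t * p.2.1 + a₁ p.1 p.2.1) - (t * p.2.2 + a₁ p.1 p.2.2))
      have hF : Measurable (fun q : ℝ × (X × ℝ × ℝ) => F q.1 q.2) := by
        refine (measurable_ker _).comp (Measurable.sub ?_ ?_)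
        · exact (measurable_fst.mul (by fun_prop)).add (ha₁.comp
            ((measurable_fst.comp measurable_snd).prodMk (by fun_prop)))
        · exact (measurable_fst.mul (by fun_prop)).add (ha₁.comp
            ((measurable_fst.comp measurable_snd).prodMk (by fun_prop)))
      have hFt : ∀ t, Measurable (F t) := fun t => hF.comp measurable_prodMk_left
      have hC := kerConst_ne_top (α := (α : ℝ)) (by exact_mod_cast h0) (by exact_mod_cast h1)
      have hfin : ∫⁻ t, ∫⁻ p, F t p ∂(μ.prod (I.prod I)) ∂I ≠ ⊤ := by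
        rw [lintegral_lintegral_swap hF.aemeasurable]
        have hb1 : ∀ p : X × ℝ × ℝ, ∫⁻ t, F t p ∂I ≤ kerConst α * ker α (p.2.1 - p.2.2) :=
          fun p => by
            refine le_trans (le_of_eq ?_) (lintegral_ker_affine_le (by exact_mod_cast h0) _
              (a₁ p.1 p.2.1 - a₁ p.1 p.2.2))
            refine lintegral_congr fun t => ?_
            simp only [F]; congr 1; ring
        refine ne_top_of_le_ne_top ?_ (lintegral_mono hb1)
        have hk : Measurable (fun p : X × ℝ × ℝ => ker α (p.2.1 - p.2.2)) :=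
          (measurable_ker _).comp (by fun_prop)
        rw [lintegral_const_mul _ hk, lintegral_prod _ hk.aemeasurable]
        refine ENNReal.mul_ne_top hC ?_
        dsimp only
        rw [lintegral_const]
        refine ENNReal.mul_ne_top ?_ (measure_ne_top _ _)
        have hk2 : Measurable (fun q : ℝ × ℝ => ker α (q.1 - q.2)) :=
          (measurable_ker _).comp (by fun_prop)
        rw [lintegral_prod _ hk2.aemeasurable]
        refine ne_top_of_le_ne_top ?_
          (lintegral_mono fun u => lintegral_ker_sub_le (by exact_mod_cast h0) u)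
        rw [lintegral_const]
        exact ENNReal.mul_ne_top hC (measure_ne_top _ _)
      have ht := ae_lt_top (Measurable.lintegral_prod_right' hF) hfin
      filter_upwards [ht] with t ht
      rw [lintegral_prod _ (hFt t).aemeasurable] at ht
      have hx := ae_lt_top (Measurable.lintegral_prod_right' (hFt t)) ht.ne
      filter_upwards [hx] with x hx
      have hm : Measurable (fun q : ℝ × ℝ => F t (x, q)) := (hFt t).comp measurable_prodMk_left
      rw [lintegral_prod _ hm.aemeasurable] at hx
      exact ae_lt_top (Measurable.lintegral_prod_right' hm) hx.ne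
    -- the countably many exponents
    let αs : ℕ → ℝ≥0 := fun k => 1 - 1 / ((k : ℝ≥0) + 2)
    have hα : ∀ k, 0 < αs k ∧ αs k < 1 := fun k => by
      have h2 : (1 : ℝ≥0) / (k + 2) < 1 := by
        rw [div_lt_one (by positivity)]; exact lt_of_lt_of_le one_lt_two le_add_self
      exact ⟨tsub_pos_of_lt h2, tsub_lt_self one_pos (by positivity)⟩
    filter_upwards [hrest, ae_all_iff.2 fun k => henergy (αs k) (hα k).1 (hα k).2] with t ht het
    filter_upwards [Measure.ae_ae_of_ae_prod ht, ae_all_iff.2 het] with x hx hex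
    let g : ℝ → ℝ := fun u => t * u + a₁ x u
    have hg : Measurable g :=
      (measurable_id.const_mul t).add (ha₁.comp measurable_prodMk_left)
    set Y := (fun v => t • v + a x v) '' cube (m + 1) with hY
    let S : Set (ℝ × (Fin m → ℝ)) := (fun y : Fin (m + 1) → ℝ => (y 0, Fin.tail y)) '' Y
    have hSY : dimH S ≤ dimH Y := by
      refine LipschitzWith.dimH_image_le (K := 1) (LipschitzWith.of_dist_le_mul fun p q => ?_) Y
      rw [NNReal.coe_one, one_mul, Prod.dist_eq]
      exact max_le (dist_le_pi_dist p q 0)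
        ((dist_pi_le_iff dist_nonneg).2 fun i => dist_le_pi_dist p q i.succ)
    refine le_trans ?_ hSY
    have hstep : ∀ k, ((αs k : ℝ≥0) : ℝ≥0∞) + (m : ℝ≥0) ≤ dimH S := by
      intro k
      let Good : Set ℝ := {u | (m : ℝ≥0∞) ≤ dimH ((fun v => t • v + b (x, u) v) '' cube m)}
      let P : ℕ → Set ℝ := fun M => Icc (0 : ℝ) 1 ∩
        {u | ∫⁻ w in Icc (0 : ℝ) 1, ker (αs k) (g u - g w) ≤ M}
      obtain ⟨M, hM⟩ : ∃ M, volume (P M ∩ Good) ≠ 0 := by
        by_contra h
        simp only [not_exists, not_not] at h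
        have hcov : ∀ᵐ u ∂I, u ∈ ⋃ M, P M ∩ Good := by
          filter_upwards [hx, hex k, ae_restrict_mem measurableSet_Icc] with u hu hu' huI
          obtain ⟨M, hM⟩ := ENNReal.exists_nat_gt hu'.ne
          exact mem_iUnion.2 ⟨M, ⟨huI, hM.le⟩, hu⟩
        have h0 : volume (⋃ M, P M ∩ Good) = 0 := measure_iUnion_null h
        have : I univ ≤ I (⋃ M, P M ∩ Good) := measure_mono_ae (by
          filter_upwards [hcov] with u hu _ using hu)
        have h1 : I univ = 1 := by simp [I, Real.volume_Icc]
        rw [h1] at this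
        exact one_ne_zero (le_zero_iff.1
          (this.trans ((Measure.restrict_apply_le _ _).trans h0.le)))
      have hν := map_le_of_potential (α := (αs k : ℝ)) (by exact_mod_cast (hα k).1) hg
        (P := P M) (M := (M : ℝ≥0∞)) (by simp) (fun u hu => hu.2) inter_subset_left
      have hsub : ∀ u ∈ P M,
          (fun v => t • v + b (x, u) v) '' cube m ⊆ {y | (g u, y) ∈ S} := by
        rintro u ⟨huI, -⟩ _ ⟨v, hv, rfl⟩
        refine ⟨_, ⟨Fin.cons u v, Fin.cases huI hv, rfl⟩, ?_⟩
        ext
        · simp [g, hfirst]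
        · simp [Fin.tail, b]
      refine le_dimH_of_fibres ((volume.restrict (P M)).map g) (by simp) hν S
        (g '' (P M ∩ Good)) ?_ ?_ ?_
      · refine fun h0 => hM ?_
        have h2 := (Measure.le_map_apply (μ := volume.restrict (P M)) hg.aemeasurable (g '' (P M ∩ Good)))
        rw [h0, le_zero_iff] at h2
        refine measure_mono_null (t := g ⁻¹' (g '' (P M ∩ Good)) ∩ P M)
          (subset_inter (subset_preimage_image g _) inter_subset_left) ?_
        exact le_zero_iff.1 ((Measure.le_restrict_apply _ _).trans h2.le)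
      all_goals
        rintro _ ⟨u, ⟨huP, huG⟩, rfl⟩
      · exact ((cube_nonempty m).image _).mono (hsub u huP)
      · simpa using huG.trans (dimH_mono (hsub u huP))
    have hlim : Tendsto (fun k => ((αs k : ℝ≥0) : ℝ≥0∞) + (m : ℝ≥0)) atTop
        (𝓝 (((m + 1 : ℕ) : ℝ≥0∞))) := by
      have h1 : Tendsto αs atTop (𝓝 (1 - 0)) := by
        refine tendsto_const_nhds.sub ?_
        have := (tendsto_const_div_atTop_nhds_zero_nat (1 : ℝ≥0)).comp (tendsto_add_atTop_nat 2)
        exact this.congr fun k => by simp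
      rw [tsub_zero] at h1
      have h2 := (ENNReal.tendsto_coe.2 h1).add (tendsto_const_nhds (x := ((m : ℝ≥0) : ℝ≥0∞)))
      simpa [add_comm] using h2
    exact le_of_tendsto' hlim hstep

end Vale.Agent.P127
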