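import Vale.Agent.P127.MaximalPlanar
import Vale.Agent.P127.Triangular

/-!
The Kakeya maximal estimate, at the critical exponent `n = m + 1` and with a logarithmic loss,
for every triangular measurable choice of base points.
-/

open MeasureTheory Filter Topology Set Metric
open scoped ENNReal NNReal

namespace Vale.Agent.P127.Maximal

noncomputable section

/-- Lebesgue measure on the unit cube. -/
abbrev cubeM (m : ℕ) : Measure (Fin m → ℝ) := Measure.pi fun _ : Fin m => unitI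

/-- The uniform probability measure on the cube of side `2δ` around the origin. -/
abbrev boxM (m : ℕ) (δ : ℝ) : Measure (Fin m → ℝ) := Measure.pi fun _ : Fin m => avgM δ

lemma lintegral_pi_succ {m : ℕ} (ν : Measure ℝ) [SigmaFinite ν] {f : (Fin (m + 1) → ℝ) → ℝ≥0∞}
    (hf : Measurable f) :
    ∫⁻ v, f v ∂(Measure.pi fun _ : Fin (m + 1) => ν)
      = ∫⁻ u, ∫⁻ v', f (Fin.cons u v') ∂(Measure.pi fun _ : Fin m => ν) ∂ν := by
  have h := measurePreserving_piFinSuccAbove (fun _ : Fin (m + 1) => ν) 0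
  set e := MeasurableEquiv.piFinSuccAbove (fun _ : Fin (m + 1) => ℝ) 0 with he
  rw [← h.symm.lintegral_comp hf, lintegral_prod (fun a => f (e.symm a))
    (hf.comp e.symm.measurable).aemeasurable]
  refine lintegral_congr fun u => lintegral_congr fun v' => ?_
  congr 1
  funext i
  induction i using Fin.cases with
  | zero => simp [he, MeasurableEquiv.piFinSuccAbove]
  | succ k => simp [he, MeasurableEquiv.piFinSuccAbove]

/-- Truncation: `F ≤ l + (F ^ n / l) ^ (1 / (n - 1))`. -/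
lemma le_add_rpow_div (m : ℕ) (F l : ℝ≥0∞) :
    F ≤ l + (F ^ (m + 2) / l) ^ ((m + 1 : ℝ)⁻¹) := by
  rcases le_or_gt F l with h | h
  · exact h.trans le_self_add
  · refine le_trans ?_ le_add_self
    have hF0 : F ≠ 0 := (lt_of_le_of_lt zero_le h).ne'
    calc F = ((F ^ (m + 1 : ℕ)) ^ ((m + 1 : ℝ)⁻¹)) := by
          rw [← ENNReal.rpow_natCast, ← ENNReal.rpow_mul]
          push_cast
          rw [mul_inv_cancel₀ (by positivity), ENNReal.rpow_one]
      _ ≤ _ := by
          refine ENNReal.rpow_le_rpow ?_ (by positivity)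
          rcases eq_or_ne F ⊤ with rfl | hFt
          · rw [ENNReal.top_pow (by omega), ENNReal.top_pow (by omega),
              ENNReal.top_div_of_ne_top h.ne]
          rw [ENNReal.le_div_iff_mul_le (Or.inr (by simp [hF0])) (Or.inr (by simp [hFt]))]
          calc F ^ (m + 1) * l ≤ F ^ (m + 1) * F := by gcongr
            _ = F ^ (m + 2) := (pow_succ _ _).symm

lemma measurable_cons (m : ℕ) :
    Measurable fun p : ℝ × (Fin m → ℝ) => (Fin.cons p.1 p.2 : Fin (m + 1) → ℝ) :=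
  measurable_pi_iff.2 fun i => by
    induction i using Fin.cases with
    | zero => exact measurable_fst
    | succ k => exact (measurable_pi_apply k).comp measurable_snd

/-- Cancellation of the density weight. -/
lemma lintegral_div_dens_le {δ : ℝ} (hδ : 0 < δ) {g : ℝ → ℝ → ℝ}
    (hg : Measurable fun p : ℝ × ℝ => g p.1 p.2) {G : ℝ → ℝ → ℝ≥0∞}
    (hG : Measurable fun p : ℝ × ℝ => G p.1 p.2) {c : ℝ≥0∞} (hc : c ≠ 0) (hct : c ≠ ⊤) :
    ∫⁻ u, ∫⁻ s, ∫⁻ t, G t (g t u + s) / (c * dens δ (g t) (g t u + s)) ∂(volume : Measure ℝ)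
        ∂(avgM δ) ∂unitI ≤ c⁻¹ * ∫⁻ t, ∫⁻ y, G t y := by
  have := isProbabilityMeasure_avgM hδ
  have hpt : Measurable fun q : (ℝ × ℝ) × ℝ => (q.2, g q.2 q.1.1 + q.1.2) :=
    measurable_snd.prodMk ((hg.comp (measurable_snd.prodMk
      (measurable_fst.comp measurable_fst))).add (measurable_snd.comp measurable_fst))
  have hD := measurable_dens δ hg
  have hQ : Measurable fun q : (ℝ × ℝ) × ℝ =>
      G q.2 (g q.2 q.1.1 + q.1.2) / (c * dens δ (g q.2) (g q.2 q.1.1 + q.1.2)) :=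
    (hG.comp hpt).div ((hD.comp hpt).const_mul c)
  rw [← lintegral_const_mul' _ _ (ENNReal.inv_ne_top.2 hc)]
  rw [← lintegral_prod (fun q : ℝ × ℝ => ∫⁻ t, G t (g t q.1 + q.2) /
      (c * dens δ (g t) (g t q.1 + q.2)))
    (Measurable.lintegral_prod_right' hQ).aemeasurable,
    lintegral_lintegral_swap (f := fun (q : ℝ × ℝ) (t : ℝ) => G t (g t q.1 + q.2) /
      (c * dens δ (g t) (g t q.1 + q.2))) hQ.aemeasurable]
  refine lintegral_mono fun t => ?_
  have hgt : Measurable (g t) := hg.comp measurable_prodMk_left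
  have hφ : Measurable fun y => G t y / (c * dens δ (g t) y) :=
    (hG.comp measurable_prodMk_left).div ((hD.comp measurable_prodMk_left).const_mul c)
  have hφ' : Measurable fun q : ℝ × ℝ => G t (g t q.1 + q.2) /
      (c * dens δ (g t) (g t q.1 + q.2)) :=
    hφ.comp ((hgt.comp measurable_fst).add measurable_snd)
  rw [lintegral_prod _ hφ'.aemeasurable]
  dsimp only
  rw [lintegral_avg_eq hgt hφ, ← lintegral_const_mul' _ _ (ENNReal.inv_ne_top.2 hc)]
  refine lintegral_mono fun y => ?_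
  rw [div_eq_mul_inv, ENNReal.mul_inv (Or.inl hc) (Or.inl hct)]
  calc dens δ (g t) y * (G t y * (c⁻¹ * (dens δ (g t) y)⁻¹))
      = c⁻¹ * G t y * (dens δ (g t) y * (dens δ (g t) y)⁻¹) := by ring
    _ ≤ c⁻¹ * G t y * 1 := mul_le_mul_right (ENNReal.mul_inv_le_one _) _
    _ = _ := mul_one _

/-- `X ≤ z + X ^ (m + 1) / z ^ m`. -/
lemma le_add_pow_div (m : ℕ) (X : ℝ≥0∞) {z : ℝ≥0∞} (hz : z ≠ 0) (hzt : z ≠ ⊤) :
    X ≤ z + X ^ (m + 1) * (z ^ m)⁻¹ := by
  rcases le_or_gt X z with h | h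
  · exact h.trans le_self_add
  · refine le_trans ?_ le_add_self
    rw [← div_eq_mul_inv, ENNReal.le_div_iff_mul_le (Or.inl (pow_ne_zero _ hz))
      (Or.inl (ENNReal.pow_ne_top hzt))]
    calc X * z ^ m ≤ X * X ^ m := by gcongr
      _ = X ^ (m + 1) := (pow_succ' _ _).symm

lemma boxM_eq (m : ℕ) {δ : ℝ} (hδ : 0 < δ) :
    boxM m δ = ((ENNReal.ofReal (2 * δ))⁻¹) ^ m •
      volume.restrict (Icc (fun _ : Fin m => -δ) (fun _ => δ)) := by
  have := isProbabilityMeasure_avgM hδ
  refine Measure.pi_eq fun s _ => ?_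
  rw [volume_pi, ← pi_univ_Icc, Measure.restrict_pi_pi, Measure.smul_apply, Measure.pi_pi]
  simp [avgM, Finset.prod_mul_distrib]

/-- The average of `f` over the tube of the selection `a` with parameter `v`. -/
def tubeAvg (m : ℕ) (δ : ℝ) (a : (Fin m → ℝ) → Fin m → ℝ) (f : ℝ × (Fin m → ℝ) → ℝ≥0∞)
    (v : Fin m → ℝ) : ℝ≥0∞ :=
  ∫⁻ t, ∫⁻ s, f (t, t • v + a v + s) ∂(boxM m δ) ∂unitI

lemma measurable_tubeAvg {m : ℕ} {δ : ℝ} (hδ : 0 < δ) {a : (Fin m → ℝ) → Fin m → ℝ} (ha : Measurable a)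
    {f : ℝ × (Fin m → ℝ) → ℝ≥0∞} (hf : Measurable f) : Measurable (tubeAvg m δ a f) := by
  have := isProbabilityMeasure_avgM hδ
  refine Measurable.lintegral_prod_right'
    (f := fun q : (Fin m → ℝ) × ℝ => ∫⁻ s, f (q.2, q.2 • q.1 + a q.1 + s) ∂(boxM m δ)) ?_
  exact Measurable.lintegral_prod_right' (f := fun q : ((Fin m → ℝ) × ℝ) × (Fin m → ℝ) =>
    f (q.1.2, q.1.2 • q.1.1 + a q.1.1 + q.2)) (by fun_prop)

/-- Truncation along one tube. -/
lemma tubeAvg_le_add {m : ℕ} {δ : ℝ} (hδ : 0 < δ) (b : (Fin m → ℝ) → Fin m → ℝ)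
    (F : ℝ × (Fin m → ℝ) → ℝ≥0∞) {l : ℝ → ℝ≥0∞} (hl : Measurable l) (v : Fin m → ℝ) :
    tubeAvg m δ b F v ≤ (∫⁻ t, l t ∂unitI)
      + tubeAvg m δ b (fun p => (F p ^ (m + 2) / l p.1) ^ ((m + 1 : ℝ)⁻¹)) v := by
  have := isProbabilityMeasure_avgM hδ
  calc tubeAvg m δ b F v ≤ ∫⁻ t, ∫⁻ s, (l t + (F (t, t • v + b v + s) ^ (m + 2) / l t)
        ^ ((m + 1 : ℝ)⁻¹)) ∂(boxM m δ) ∂unitI :=
      lintegral_mono fun t => lintegral_mono fun s => le_add_rpow_div m _ _
    _ = _ := by
      simp only [tubeAvg, lintegral_add_left measurable_const, lintegral_const, measure_univ,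
        mul_one, lintegral_add_left hl]

/-- Peeling the first coordinate. -/
lemma tubeAvg_succ {m : ℕ} {δ : ℝ} (hδ : 0 < δ) {a : (Fin (m + 1) → ℝ) → Fin (m + 1) → ℝ}
    (htri : Triangular a) {f : ℝ × (Fin (m + 1) → ℝ) → ℝ≥0∞}
    (hf : Measurable f) (u : ℝ) (v' : Fin m → ℝ) :
    tubeAvg (m + 1) δ a f (Fin.cons u v') = ∫⁻ s, tubeAvg m δ (fun v i => a (Fin.cons u v) i.succ)
      (fun p => f (p.1, Fin.cons (p.1 * u + a (Fin.cons u 0) 0 + s) p.2)) v' ∂(avgM δ) := by
  have := isProbabilityMeasure_avgM hδ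
  have hfirst : a (Fin.cons u v') 0 = a (Fin.cons u 0) 0 :=
    htri _ _ 0 fun j hj => by simp [Fin.le_zero_iff.1 hj]
  let c : Fin m → ℝ := fun i => a (Fin.cons u v') i.succ
  have hpt : ∀ t s s', f (t, t • (Fin.cons u v' : Fin (m + 1) → ℝ) + a (Fin.cons u v')
      + Fin.cons s s') = f (t, Fin.cons (t * u + a (Fin.cons u 0) 0 + s) (t • v' + c + s')) := by
    intro t s s'
    refine congrArg (fun y => f (t, y)) ?_
    funext i
    induction i using Fin.cases with
    | zero => simp [hfirst]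
    | succ k => simp [c]
  unfold tubeAvg
  calc _ = ∫⁻ t, ∫⁻ s, ∫⁻ s', f (t, Fin.cons (t * u + a (Fin.cons u 0) 0 + s) (t • v' + c + s'))
        ∂(boxM m δ) ∂(avgM δ) ∂unitI := by
        refine lintegral_congr fun t => ?_
        rw [lintegral_pi_succ (avgM δ) (by fun_prop)]
        exact lintegral_congr fun s => lintegral_congr fun s' => hpt t s s'
    _ = _ := by
        refine lintegral_lintegral_swap ?_
        refine (Measurable.lintegral_prod_right' (f := fun q : (ℝ × ℝ) × (Fin m → ℝ) =>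
          f (q.1.1, Fin.cons (q.1.1 * u + a (Fin.cons u 0) 0 + q.1.2) (q.1.1 • v' + c + q.2)))
            ?_).aemeasurable
        exact hf.comp ((measurable_fst.comp measurable_fst).prodMk
          ((measurable_cons m).comp (Measurable.prodMk
            ((((measurable_fst.comp measurable_fst).mul_const u).add_const _).add
              (measurable_snd.comp measurable_fst))
            ((((measurable_fst.comp measurable_fst).smul_const v').add_const c).add
              measurable_snd))))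

/-- The truncated slice. -/
def slice (m : ℕ) (δ : ℝ) (a₁ : ℝ → ℝ) (f : ℝ × (Fin (m + 1) → ℝ) → ℝ≥0∞) (c : ℝ≥0∞)
    (u s : ℝ) (p : ℝ × (Fin m → ℝ)) : ℝ≥0∞ :=
  (f (p.1, Fin.cons (p.1 * u + a₁ u + s) p.2) ^ (m + 2)
    / (c * dens δ (fun w => p.1 * w + a₁ w) (p.1 * u + a₁ u + s))) ^ ((m + 1 : ℝ)⁻¹)

lemma measurable_slice {m : ℕ} {δ : ℝ} {a₁ : ℝ → ℝ} (ha₁ : Measurable a₁)
    {f : ℝ × (Fin (m + 1) → ℝ) → ℝ≥0∞} (hf : Measurable f) (c : ℝ≥0∞) (u : ℝ) :
    Measurable fun q : ℝ × ℝ × (Fin m → ℝ) => slice m δ a₁ f c u q.1 q.2 := by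
  have hy : Measurable fun q : ℝ × ℝ × (Fin m → ℝ) => q.2.1 * u + a₁ u + q.1 := by fun_prop
  have hg : Measurable fun p : ℝ × ℝ => p.1 * p.2 + a₁ p.2 :=
    (measurable_fst.mul measurable_snd).add (ha₁.comp measurable_snd)
  exact (((hf.comp ((measurable_fst.comp measurable_snd).prodMk ((measurable_cons m).comp
    (hy.prodMk (measurable_snd.comp measurable_snd))))).pow_const _).div
      (((measurable_dens δ (G := fun t w => t * w + a₁ w) hg).comp
        ((measurable_fst.comp measurable_snd).prodMk hy)).const_mul c)).pow_const _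

/-- The pointwise bound along one tube. -/
lemma tubeAvg_succ_le {m : ℕ} {δ : ℝ} (hδ : 0 < δ) (hδ1 : δ ≤ 1)
    {a : (Fin (m + 1) → ℝ) → Fin (m + 1) → ℝ} (htri : Triangular a)
    (ha₁ : Measurable fun u : ℝ => a (Fin.cons u 0) 0)
    {f : ℝ × (Fin (m + 1) → ℝ) → ℝ≥0∞} (hf : Measurable f) {c : ℝ≥0∞} (hct : c ≠ ⊤)
    {z : ℝ≥0∞} (hz : z ≠ 0) (hzt : z ≠ ⊤) {u : ℝ} (hu : u ∈ Icc (0 : ℝ) 1) (v' : Fin m → ℝ) :
    tubeAvg (m + 1) δ a f (Fin.cons u v') ≤ c * (4 * logLoss δ) + (z + (∫⁻ s,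
      tubeAvg m δ (fun v i => a (Fin.cons u v) i.succ)
        (slice m δ (fun u => a (Fin.cons u 0) 0) f c u s) v' ^ (m + 1) ∂(avgM δ))
          * (z ^ m)⁻¹) := by
  have := isProbabilityMeasure_avgM hδ
  have hs : ∀ᵐ s ∂(avgM δ), |s| ≤ δ := by
    rw [avgM]
    refine Measure.ae_smul_measure ?_ _
    filter_upwards [ae_restrict_mem measurableSet_Icc] with s hs using abs_le.2 hs
  rw [tubeAvg_succ hδ htri hf]
  set R : ℝ → ℝ≥0∞ := fun s => tubeAvg m δ (fun v i => a (Fin.cons u v) i.succ)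
    (slice m δ (fun u => a (Fin.cons u 0) 0) f c u s) v'
  calc _ ≤ ∫⁻ s, (c * (4 * logLoss δ) + (z + R s ^ (m + 1) * (z ^ m)⁻¹)) ∂(avgM δ) := by
        refine lintegral_mono_ae ?_
        filter_upwards [hs] with s hs
        refine (tubeAvg_le_add hδ _ _ (l := fun t => c * dens δ
          (fun w => t * w + a (Fin.cons w 0) 0) (t * u + a (Fin.cons u 0) 0 + s)) ?_ v').trans ?_
        · exact ((measurable_dens δ (G := fun t w => t * w + a (Fin.cons w 0) 0)
            ((measurable_fst.mul measurable_snd).add (ha₁.comp measurable_snd))).comp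
              (measurable_id.prodMk (by fun_prop))).const_mul c
        refine add_le_add ?_ (le_add_pow_div m _ hz hzt)
        rw [lintegral_const_mul' _ _ hct]
        exact mul_le_mul_right (lintegral_dens_line_le hδ hδ1 ha₁ hu hs) c
    _ = _ := by
        rw [lintegral_add_left measurable_const, lintegral_add_left measurable_const,
          lintegral_const, lintegral_const, measure_univ, mul_one, mul_one,
          lintegral_mul_const' _ _ (ENNReal.inv_ne_top.2 (pow_ne_zero _ hz))]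

/-- The averaged power of the truncated slices. -/
lemma lintegral_slice_pow_le {m : ℕ} {δ : ℝ} (hδ : 0 < δ) {a₁ : ℝ → ℝ} (ha₁ : Measurable a₁)
    {f : ℝ × (Fin (m + 1) → ℝ) → ℝ≥0∞} (hf : Measurable f) {c : ℝ≥0∞} (hc : c ≠ 0) (hct : c ≠ ⊤) :
    ∫⁻ u, ∫⁻ s, (∫⁻ p, slice m δ a₁ f c u s p ^ (m + 1)) ∂(avgM δ) ∂unitI
      ≤ c⁻¹ * ∫⁻ p, f p ^ (m + 2) := by
  have hg : Measurable fun p : ℝ × ℝ => p.1 * p.2 + a₁ p.2 :=
    (measurable_fst.mul measurable_snd).add (ha₁.comp measurable_snd)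
  have hG : Measurable fun p : ℝ × ℝ =>
      ∫⁻ y' : Fin m → ℝ, f (p.1, Fin.cons p.2 y') ^ (m + 2) :=
    Measurable.lintegral_prod_right' (f := fun q : (ℝ × ℝ) × (Fin m → ℝ) =>
      f (q.1.1, Fin.cons q.1.2 q.2) ^ (m + 2))
      ((hf.comp ((measurable_fst.comp measurable_fst).prodMk ((measurable_cons m).comp
        ((measurable_snd.comp measurable_fst).prodMk measurable_snd)))).pow_const _)
  have hN : ∫⁻ p, f p ^ (m + 2)
      = ∫⁻ t, ∫⁻ y, ∫⁻ y' : Fin m → ℝ, f (t, Fin.cons y y') ^ (m + 2) := by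
    rw [Measure.volume_eq_prod, lintegral_prod _ (hf.pow_const _).aemeasurable]
    refine lintegral_congr fun t => ?_
    simp only [volume_pi]
    exact lintegral_pi_succ volume ((hf.comp measurable_prodMk_left).pow_const _)
  rw [hN]
  refine le_of_eq_of_le ?_ (lintegral_div_dens_le hδ (g := fun t u => t * u + a₁ u) hg
    (G := fun t y => ∫⁻ y' : Fin m → ℝ, f (t, Fin.cons y y') ^ (m + 2)) hG hc hct)
  refine lintegral_congr fun u => lintegral_congr fun s => ?_
  have hH : Measurable (slice m δ a₁ f c u s) :=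
    (measurable_slice ha₁ hf c u).comp measurable_prodMk_left
  rw [Measure.volume_eq_prod, lintegral_prod _ (hH.pow_const _).aemeasurable]
  refine lintegral_congr fun t => ?_
  simp only [slice, div_eq_mul_inv]
  have hFt : Measurable fun y : Fin m → ℝ =>
      f (t, Fin.cons (t * u + a₁ u + s) y) ^ (m + 2) :=
    (hf.comp (measurable_const.prodMk ((measurable_cons m).comp
      (measurable_const.prodMk measurable_id)))).pow_const _
  rw [← lintegral_mul_const _ hFt]
  refine lintegral_congr fun y' => ?_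
  rw [← ENNReal.rpow_natCast, ← ENNReal.rpow_mul]
  push_cast
  rw [inv_mul_cancel₀ (by positivity), ENNReal.rpow_one]

/-- The distributional bound for the tube averages in one dimension more. -/
lemma measure_tubeAvg_gt_le {m : ℕ} {δ : ℝ} (hδ : 0 < δ) (hδ1 : δ ≤ 1) {K : ℝ≥0∞}
    (hKt : K ≠ ⊤)
    (hK : ∀ b, Measurable b → Triangular b → ∀ H, Measurable H →
      ∫⁻ v, tubeAvg m δ b H v ^ (m + 1) ∂(cubeM m) ≤ K * ∫⁻ p, H p ^ (m + 1))
    {a : (Fin (m + 1) → ℝ) → Fin (m + 1) → ℝ} (ha : Measurable a) (htri : Triangular a)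
    {f : ℝ × (Fin (m + 1) → ℝ) → ℝ≥0∞} (hf : Measurable f) {c : ℝ≥0∞} (hc : c ≠ 0) (hct : c ≠ ⊤) :
    cubeM (m + 1) {v | 6 * (c * logLoss δ) < tubeAvg (m + 1) δ a f v}
      ≤ ((c * logLoss δ) ^ (m + 1))⁻¹ * (K * (c⁻¹ * ∫⁻ p, f p ^ (m + 2))) := by
  have := isProbabilityMeasure_avgM hδ
  set a₁ : ℝ → ℝ := fun u => a (Fin.cons u 0) 0
  have ha₁ : Measurable a₁ := (measurable_pi_apply 0).comp
    (ha.comp ((measurable_cons m).comp (measurable_id.prodMk measurable_const)))
  set z := c * logLoss δ with hzdef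
  have hz : z ≠ 0 :=
    mul_ne_zero hc (lt_of_lt_of_le zero_lt_one (one_le_logLoss hδ hδ1)).ne'
  have hzt : z ≠ ⊤ := ENNReal.mul_ne_top hct (logLoss_ne_top δ)
  have hS : MeasurableSet {v | 6 * z < tubeAvg (m + 1) δ a f v} :=
    measurableSet_lt measurable_const (measurable_tubeAvg hδ ha hf)
  rw [← lintegral_indicator_one hS, lintegral_pi_succ unitI (measurable_one.indicator hS)]
  have hb : ∀ u, Measurable fun v : Fin m → ℝ => (fun i : Fin m => a (Fin.cons u v) i.succ) :=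
    fun u => measurable_pi_iff.2 fun i =>
      (measurable_pi_apply i.succ).comp (ha.comp ((measurable_cons m).comp measurable_prodMk_left))
  have hbtri : ∀ u, Triangular fun (v : Fin m → ℝ) (i : Fin m) => a (Fin.cons u v) i.succ :=
    fun u v w i hvw => htri _ _ i.succ fun j hj => by
      induction j using Fin.cases with
      | zero => simp
      | succ k => simpa using hvw k (Fin.succ_le_succ_iff.1 hj)
  set R : ℝ → (Fin m → ℝ) → ℝ → ℝ≥0∞ := fun u v' s =>
    tubeAvg m δ (fun v i => a (Fin.cons u v) i.succ) (slice m δ a₁ f c u s) v'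
  calc ∫⁻ u, ∫⁻ v', ({v | 6 * z < tubeAvg (m + 1) δ a f v}.indicator 1 (Fin.cons u v'))
        ∂(cubeM m) ∂unitI
      ≤ ∫⁻ u, (z ^ (m + 1))⁻¹ * ∫⁻ v', ∫⁻ s, R u v' s ^ (m + 1) ∂(avgM δ) ∂(cubeM m) ∂unitI := by
        refine lintegral_mono_ae ?_
        filter_upwards [ae_restrict_mem measurableSet_Icc] with u hu
        rw [← lintegral_const_mul' _ _ (ENNReal.inv_ne_top.2 (pow_ne_zero _ hz))]
        refine lintegral_mono fun v' => ?_
        refine Set.indicator_apply_le' (fun hv => ?_) (fun _ => zero_le)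
        set Q := ∫⁻ s, R u v' s ^ (m + 1) ∂(avgM δ) with hQ
        rw [Pi.one_apply, mul_comm, ← div_eq_mul_inv, ENNReal.le_div_iff_mul_le
          (Or.inl (pow_ne_zero _ hz)) (Or.inl (ENNReal.pow_ne_top hzt)), one_mul]
        by_contra hlt
        have hQz : Q * (z ^ m)⁻¹ ≤ z := by
          rw [← div_eq_mul_inv]
          refine ENNReal.div_le_of_le_mul ?_
          rw [← pow_succ']
          exact (not_le.1 hlt).le
        have hle := (tubeAvg_succ_le hδ hδ1 htri ha₁ hf hct hz hzt hu v').trans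
          (add_le_add le_rfl (add_le_add le_rfl hQz))
        refine absurd hle (not_le.2 (lt_of_le_of_lt ?_ hv))
        rw [hzdef, mul_left_comm]
        exact le_of_eq (by ring)
    _ ≤ (z ^ (m + 1))⁻¹ * ∫⁻ u, ∫⁻ s, (K * ∫⁻ p, slice m δ a₁ f c u s p ^ (m + 1))
          ∂(avgM δ) ∂unitI := by
        rw [lintegral_const_mul' _ _ (ENNReal.inv_ne_top.2 (pow_ne_zero _ hz))]
        refine mul_le_mul_right (lintegral_mono fun u => ?_) _
        rw [lintegral_lintegral_swap]
        · exact lintegral_mono fun s => hK _ (hb u) (hbtri u) _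
            ((measurable_slice ha₁ hf c u).comp measurable_prodMk_left)
        · refine (Measurable.pow_const (Measurable.lintegral_prod_right'
            (f := fun q : ((Fin m → ℝ) × ℝ) × ℝ => ∫⁻ s', slice m δ a₁ f c u q.1.2
              (q.2, q.2 • q.1.1 + (fun i : Fin m => a (Fin.cons u q.1.1) i.succ) + s')
                ∂(boxM m δ)) ?_) _).aemeasurable
          refine Measurable.lintegral_prod_right'
            (f := fun q : (((Fin m → ℝ) × ℝ) × ℝ) × (Fin m → ℝ) => slice m δ a₁ f c u q.1.1.2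
              (q.1.2, q.1.2 • q.1.1.1 + (fun i : Fin m => a (Fin.cons u q.1.1.1) i.succ) + q.2)) ?_
          refine (measurable_slice ha₁ hf c u).comp
            ((measurable_snd.comp (measurable_fst.comp measurable_fst)).prodMk
              ((measurable_snd.comp measurable_fst).prodMk ?_))
          exact (((measurable_snd.comp measurable_fst).smul (measurable_fst.comp
            (measurable_fst.comp measurable_fst))).add ((hb u).comp (measurable_fst.comp
              (measurable_fst.comp measurable_fst)))).add measurable_snd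
    _ ≤ _ := by
        simp only [lintegral_const_mul' _ _ hKt]
        gcongr
        exact lintegral_slice_pow_le hδ ha₁ hf hc hct

/-- A dyadic layer bound. -/
lemma min_pow_le_sum (n : ℕ) (K z : ℝ≥0∞) : ∀ J : ℕ, min K (2 ^ J * z) ^ n
    ≤ z ^ n + ∑ j ∈ Finset.range J, if 2 ^ j * z < K then (2 ^ (j + 1) * z) ^ n else 0
  | 0 => by simpa using pow_le_pow_left' (min_le_right K z) n
  | J + 1 => by
    rw [Finset.sum_range_succ, ← add_assoc]
    split_ifs with h
    · exact (pow_le_pow_left' (min_le_right _ _) n).trans le_add_self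
    · rw [add_zero]
      refine le_trans (pow_le_pow_left' ?_ n) (min_pow_le_sum n K z J)
      exact le_min (min_le_left _ _) ((min_le_left _ _).trans (not_lt.1 h))

/-- The number of dyadic levels needed. -/
lemma exists_levels {δ : ℝ} (hδ : 0 < δ) (hδ1 : δ ≤ 1) :
    ∃ k : ℕ, ENNReal.ofReal δ⁻¹ ≤ 2 ^ k ∧ ((k + 1 : ℕ) : ℝ≥0∞) ≤ 2 * logLoss δ := by
  have hl : 0 ≤ Real.log δ⁻¹ := Real.log_nonneg (one_le_inv_iff₀.2 ⟨hδ, hδ1⟩)
  have h2 : 0 < Real.log 2 := Real.log_pos one_lt_two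
  refine ⟨⌈Real.log δ⁻¹ / Real.log 2⌉₊, ?_, ?_⟩
  · rw [← ENNReal.ofReal_ofNat, ← ENNReal.ofReal_pow zero_le_two]
    refine ENNReal.ofReal_le_ofReal ?_
    rw [← Real.log_le_log_iff (inv_pos.2 hδ) (by positivity), Real.log_pow]
    exact (div_le_iff₀ h2).1 (Nat.le_ceil _)
  · rw [logLoss, ← ENNReal.ofReal_ofNat, ← ENNReal.ofReal_mul zero_le_two,
      ← ENNReal.ofReal_natCast]
    refine ENNReal.ofReal_le_ofReal ?_
    push_cast
    have h3 := Nat.ceil_lt_add_one (div_nonneg hl h2.le)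
    have h4 : Real.log δ⁻¹ / Real.log 2 ≤ 2 * Real.log δ⁻¹ := by
      rw [div_le_iff₀ h2]
      nlinarith [Real.log_two_gt_d9]
    linarith

/-- A crude bound for every tube average. -/
lemma tubeAvg_le_of_sup {m : ℕ} {δ : ℝ} (hδ : 0 < δ) (a : (Fin (m + 1) → ℝ) → Fin (m + 1) → ℝ)
    {f : ℝ × (Fin (m + 1) → ℝ) → ℝ≥0∞} (hf : Measurable f) {z : ℝ≥0∞} (hz : z ≠ 0) (hzt : z ≠ ⊤)
    (hA : ENNReal.ofReal δ⁻¹ ^ (m + 1) * ∫⁻ p, f p ^ (m + 2) ≤ z ^ (m + 2))
    (v : Fin (m + 1) → ℝ) : tubeAvg (m + 1) δ a f v ≤ 2 * z := by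
  have := isProbabilityMeasure_avgM hδ
  calc tubeAvg (m + 1) δ a f v
      ≤ ∫⁻ t, ∫⁻ s, (z + f (t, t • v + a v + s) ^ (m + 2) * (z ^ (m + 1))⁻¹)
          ∂(boxM (m + 1) δ) ∂unitI :=
        lintegral_mono fun t => lintegral_mono fun s => le_add_pow_div (m + 1) _ hz hzt
    _ = z + (∫⁻ t, ∫⁻ s, f (t, t • v + a v + s) ^ (m + 2) ∂(boxM (m + 1) δ) ∂unitI)
          * (z ^ (m + 1))⁻¹ := by
        simp only [lintegral_add_left measurable_const, lintegral_const, measure_univ, mul_one,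
          lintegral_mul_const' _ _ (ENNReal.inv_ne_top.2 (pow_ne_zero _ hz))]
    _ ≤ 2 * z := by
        rw [two_mul]
        refine add_le_add le_rfl ?_
        rw [← div_eq_mul_inv]
        refine ENNReal.div_le_of_le_mul ?_
        rw [← pow_succ']
        refine le_trans ?_ hA
        have hbox : ∀ t, ∫⁻ s, f (t, t • v + a v + s) ^ (m + 2) ∂(boxM (m + 1) δ)
            ≤ ENNReal.ofReal δ⁻¹ ^ (m + 1) * ∫⁻ y, f (t, y) ^ (m + 2) := by
          intro t
          rw [boxM_eq _ hδ, lintegral_smul_measure, smul_eq_mul]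
          refine mul_le_mul' (pow_le_pow_left' ?_ _) ?_
          · rw [ENNReal.ofReal_inv_of_pos hδ]
            exact ENNReal.inv_le_inv.2 (ENNReal.ofReal_le_ofReal (by linarith))
          · exact (setLIntegral_le_lintegral _ _).trans (le_of_eq
              (lintegral_add_left_eq_self (fun y => f (t, y) ^ (m + 2)) _))
        refine (lintegral_mono hbox).trans ?_
        rw [lintegral_const_mul' _ _ (ENNReal.pow_ne_top ENNReal.ofReal_ne_top),
          Measure.volume_eq_prod, lintegral_prod _ (hf.pow_const _).aemeasurable]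
        exact mul_le_mul_right (setLIntegral_le_lintegral _ _) _

/-- The constants. -/
def maxConst : ℕ → ℝ≥0∞
  | 0 => 1
  | m + 1 => 1 + 2 * (m + 2) * (2 ^ (m + 2) * 6 ^ (m + 2)) * maxConst m

lemma maxConst_ne_top : ∀ m, maxConst m ≠ ⊤
  | 0 => ENNReal.one_ne_top
  | m + 1 => ENNReal.add_ne_top.2 ⟨ENNReal.one_ne_top, ENNReal.mul_ne_top
      (ENNReal.mul_ne_top (ENNReal.mul_ne_top (by simp) (by simp))
        (ENNReal.mul_ne_top (by simp) (by simp))) (maxConst_ne_top m)⟩

/-- The maximal estimate in the norm `L^n` of the directions, for triangular selections. -/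
theorem maximal_strong : ∀ (m : ℕ) {δ : ℝ}, 0 < δ → δ ≤ 1 →
    ∀ a : (Fin m → ℝ) → Fin m → ℝ, Measurable a → Triangular a →
    ∀ f : ℝ × (Fin m → ℝ) → ℝ≥0∞, Measurable f →
    ∫⁻ v, tubeAvg m δ a f v ^ (m + 1) ∂(cubeM m)
      ≤ maxConst m * logLoss δ ^ (2 * m) * ∫⁻ p, f p ^ (m + 1) := by
  intro m
  induction m with
  | zero =>
    intro δ hδ hδ1 a ha htri f hf
    simp only [tubeAvg, maxConst, Nat.mul_zero, pow_zero, mul_one, zero_add, pow_one, one_mul,
      cubeM, boxM, Measure.pi_of_empty _ (0 : Fin 0 → ℝ), lintegral_dirac]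
    rw [Measure.volume_eq_prod, lintegral_prod _ hf.aemeasurable, volume_pi,
      Measure.pi_of_empty _ (0 : Fin 0 → ℝ)]
    simp only [lintegral_dirac]
    refine le_trans (le_of_eq (lintegral_congr fun t => ?_)) (setLIntegral_le_lintegral _ _)
    congr 2
    exact Subsingleton.elim _ _
  | succ m ih =>
    intro δ hδ hδ1 a ha htri f hf
    have := isProbabilityMeasure_avgM hδ
    set L := logLoss δ with hLdef
    have hL1 : 1 ≤ L := one_le_logLoss hδ hδ1
    have hL0 : L ≠ 0 := (lt_of_lt_of_le zero_lt_one hL1).ne'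
    have hLt : L ≠ ⊤ := logLoss_ne_top δ
    show ∫⁻ v, tubeAvg (m + 1) δ a f v ^ (m + 2) ∂(cubeM (m + 1))
      ≤ maxConst (m + 1) * L ^ (2 * (m + 1)) * ∫⁻ p, f p ^ (m + 2)
    set N := ∫⁻ p, f p ^ (m + 2) with hN
    rcases eq_or_ne N ⊤ with hNt | hNt
    · rw [hNt, ENNReal.mul_top]
      · exact le_top
      · exact mul_ne_zero (by simp [maxConst]) (pow_ne_zero _ hL0)
    obtain ⟨k, hk, hk1⟩ := exists_levels hδ hδ1
    rcases eq_or_ne N 0 with hN0 | hN0
    · -- all tube averages vanish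
      have h0 : ∀ v, tubeAvg (m + 1) δ a f v = 0 := fun v => by
        refine le_antisymm (ENNReal.le_of_forall_pos_le_add fun e he _ => ?_) zero_le
        rw [zero_add]
        have hz : (e : ℝ≥0∞) / 2 ≠ 0 :=
          ENNReal.div_ne_zero.2 ⟨ENNReal.coe_ne_zero.2 he.ne', ENNReal.ofNat_ne_top⟩
        have hzt : (e : ℝ≥0∞) / 2 ≠ ⊤ := ENNReal.div_ne_top ENNReal.coe_ne_top two_ne_zero
        refine (tubeAvg_le_of_sup hδ a hf hz hzt ?_ v).trans (le_of_eq ?_)
        · rw [← hN, hN0, mul_zero]; exact zero_le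
        · exact ENNReal.mul_div_cancel two_ne_zero ENNReal.ofNat_ne_top
      simp [h0]
    set z : ℝ≥0∞ := N ^ ((m + 2 : ℝ)⁻¹) with hzdef
    have hzn : z ^ (m + 2) = N := by
      rw [hzdef, ← ENNReal.rpow_natCast, ← ENNReal.rpow_mul]
      push_cast
      rw [inv_mul_cancel₀ (by positivity), ENNReal.rpow_one]
    have hz : z ≠ 0 := by
      intro h; rw [h, zero_pow (by omega)] at hzn; exact hN0 hzn.symm
    have hzt : z ≠ ⊤ := by
      intro h; rw [h, ENNReal.top_pow (by omega)] at hzn; exact hNt hzn.symm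
    set J : ℕ := (m + 1) * k + 1 with hJ
    -- the crude bound
    have hsup : ∀ v, tubeAvg (m + 1) δ a f v ≤ 2 ^ J * z := by
      intro v
      rw [hJ, pow_succ, mul_comm ((2 : ℝ≥0∞) ^ ((m + 1) * k)) 2, mul_assoc]
      refine tubeAvg_le_of_sup hδ a hf (mul_ne_zero (pow_ne_zero _ two_ne_zero) hz)
        (ENNReal.mul_ne_top (ENNReal.pow_ne_top ENNReal.ofNat_ne_top) hzt) ?_ v
      rw [mul_pow, hzn]
      refine mul_le_mul_left ?_ _
      calc ENNReal.ofReal δ⁻¹ ^ (m + 1) ≤ (2 ^ k) ^ (m + 1) := pow_le_pow_left' hk _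
        _ = 2 ^ ((m + 1) * k) := by rw [← pow_mul, mul_comm]
        _ ≤ (2 ^ ((m + 1) * k)) ^ (m + 2) :=
          le_self_pow (one_le_pow₀ one_le_two) (by omega)
    -- the bound on each level
    have hlevel : ∀ j : ℕ, cubeM (m + 1) {v | 2 ^ j * z < tubeAvg (m + 1) δ a f v}
        * (2 ^ (j + 1) * z) ^ (m + 2)
        ≤ 2 ^ (m + 2) * 6 ^ (m + 2) * maxConst m * L ^ (2 * m + 1) * N := by
      intro j
      set c : ℝ≥0∞ := 2 ^ j * z / (6 * L) with hc
      have h6L : (6 * L : ℝ≥0∞) ≠ 0 := mul_ne_zero (by norm_num) hL0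
      have h6Lt : (6 * L : ℝ≥0∞) ≠ ⊤ := ENNReal.mul_ne_top (by norm_num) hLt
      have hc0 : c ≠ 0 :=
        ENNReal.div_ne_zero.2 ⟨mul_ne_zero (pow_ne_zero _ two_ne_zero) hz, h6Lt⟩
      have hct : c ≠ ⊤ := ENNReal.div_ne_top
        (ENNReal.mul_ne_top (ENNReal.pow_ne_top ENNReal.ofNat_ne_top) hzt) h6L
      have hcL : 6 * (c * L) = 2 ^ j * z := by
        rw [mul_left_comm, hc, ENNReal.div_mul_cancel h6L h6Lt]
      have hw := measure_tubeAvg_gt_le hδ hδ1 (K := maxConst m * L ^ (2 * m))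
        (ENNReal.mul_ne_top (maxConst_ne_top m) (ENNReal.pow_ne_top hLt))
        (fun b hb hbt H hH => ih hδ hδ1 b hb hbt H hH) ha htri hf hc0 hct
      rw [← hLdef, hcL, ← hN] at hw
      refine (mul_le_mul_left hw _).trans (le_of_eq ?_)
      rw [show (2 : ℝ≥0∞) ^ (j + 1) * z = 2 * (6 * (c * L)) by rw [hcL, pow_succ]; ring]
      have hp : ((c * L) ^ (m + 1))⁻¹ * (c * L) ^ (m + 1) = 1 :=
        ENNReal.inv_mul_cancel (pow_ne_zero _ (mul_ne_zero hc0 hL0))
          (ENNReal.pow_ne_top (ENNReal.mul_ne_top hct hLt))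
      have hq : c⁻¹ * c = 1 := ENNReal.inv_mul_cancel hc0 hct
      generalize (6 : ℝ≥0∞) = A
      generalize (2 : ℝ≥0∞) = B
      calc _ = (B ^ (m + 2) * A ^ (m + 2) * maxConst m * L ^ (2 * m + 1) * N)
            * (((c * L) ^ (m + 1))⁻¹ * (c * L) ^ (m + 1)) * (c⁻¹ * c) := by ring
        _ = _ := by rw [hp, hq, mul_one, mul_one]
    -- summing the levels
    have hmeas : ∀ j : ℕ, MeasurableSet {v | 2 ^ j * z < tubeAvg (m + 1) δ a f v} := fun j =>
      measurableSet_lt measurable_const (measurable_tubeAvg hδ ha hf)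
    calc ∫⁻ v, tubeAvg (m + 1) δ a f v ^ (m + 2) ∂(cubeM (m + 1))
        ≤ ∫⁻ v, (z ^ (m + 2) + ∑ j ∈ Finset.range J,
            {v | 2 ^ j * z < tubeAvg (m + 1) δ a f v}.indicator
              (fun _ => (2 ^ (j + 1) * z) ^ (m + 2)) v) ∂(cubeM (m + 1)) := by
          refine lintegral_mono fun v => ?_
          have h := min_pow_le_sum (m + 2) (tubeAvg (m + 1) δ a f v) z J
          rw [min_eq_left (hsup v)] at h
          exact h.trans (le_of_eq (by simp [Set.indicator_apply]))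
      _ = N + ∑ j ∈ Finset.range J, cubeM (m + 1) {v | 2 ^ j * z < tubeAvg (m + 1) δ a f v}
            * (2 ^ (j + 1) * z) ^ (m + 2) := by
          rw [lintegral_add_left measurable_const, lintegral_const, measure_univ, mul_one, hzn,
            lintegral_finsetSum _ fun j _ => measurable_const.indicator (hmeas j)]
          congr 1
          refine Finset.sum_congr rfl fun j _ => ?_
          rw [lintegral_indicator_const (hmeas j), mul_comm]
      _ ≤ N + (J : ℝ≥0∞) * (2 ^ (m + 2) * 6 ^ (m + 2) * maxConst m * L ^ (2 * m + 1) * N) := by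
          refine add_le_add le_rfl ?_
          refine (Finset.sum_le_card_nsmul _ _ _ fun j _ => hlevel j).trans ?_
          rw [Finset.card_range, nsmul_eq_mul]
      _ ≤ 1 * L ^ (2 * (m + 1)) * N + (2 * (m + 2) * L)
            * (2 ^ (m + 2) * 6 ^ (m + 2) * maxConst m * L ^ (2 * m + 1) * N) := by
          refine add_le_add ?_ (mul_le_mul_left ?_ _)
          · rw [one_mul]
            exact le_mul_of_one_le_left' (one_le_pow₀ hL1)
          · calc (J : ℝ≥0∞) ≤ (((m + 2) * (k + 1) : ℕ) : ℝ≥0∞) := by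
                  exact_mod_cast (by rw [hJ]; nlinarith)
              _ = (m + 2) * ((k + 1 : ℕ) : ℝ≥0∞) := by push_cast; rfl
              _ ≤ (m + 2) * (2 * L) := mul_le_mul_right hk1 _
              _ = _ := by ring
      _ = maxConst (m + 1) * L ^ (2 * (m + 1)) * N := by
          simp only [maxConst]; ring

end

end Vale.Agent.P127.Maximal
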