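import Vale.Agent.P127.Maximal
import Vale.Agent.P127.Main

/-!
The maximal estimate for triangular selections with the averages written as integrals over boxes.
-/

open MeasureTheory Filter Topology Set Metric
open scoped ENNReal NNReal

namespace Vale.Agent.P127.Maximal

lemma cubeM_eq (m : ℕ) :
    cubeM m = volume.restrict (Icc (0 : Fin m → ℝ) 1) := by
  rw [volume_pi, ← pi_univ_Icc, Measure.restrict_pi_pi]
  rfl

/-- The Kakeya maximal estimate at the critical exponent for triangular selections, with a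
logarithmic loss. -/
theorem maximal_triangular (m : ℕ) : ∃ C : ℝ≥0, ∀ δ : ℝ, 0 < δ → δ < 1 →
    ∀ a : (Fin m → ℝ) → Fin m → ℝ, Measurable a → Triangular a →
    ∀ f : ℝ × (Fin m → ℝ) → ℝ≥0∞, Measurable f →
    ∫⁻ v in Icc (0 : Fin m → ℝ) 1, (∫⁻ t in Icc (0 : ℝ) 1, ((ENNReal.ofReal (2 * δ))⁻¹) ^ m *
        ∫⁻ s in Icc (fun _ : Fin m => -δ) (fun _ => δ), f (t, t • v + a v + s)) ^ (m + 1)
      ≤ C * ENNReal.ofReal (1 + Real.log δ⁻¹) ^ (2 * m) * ∫⁻ p, f p ^ (m + 1) := by
  refine ⟨(maxConst m).toNNReal, fun δ hδ hδ1 a ha htri f hf => ?_⟩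
  rw [ENNReal.coe_toNNReal (maxConst_ne_top m)]
  refine le_of_eq_of_le ?_ (maximal_strong m hδ hδ1.le a ha htri f hf)
  rw [cubeM_eq]
  refine lintegral_congr fun v => ?_
  simp only [tubeAvg, boxM_eq m hδ, lintegral_smul_measure, smul_eq_mul]

end Vale.Agent.P127.Maximal
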