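import Mathlib

/-!
The planar ingredient of the Kakeya maximal estimate for triangular selections: the smoothed
push-forward densities of the slices of a planar family of segments have square integral
`O(1 + log (1/δ))`.
-/

open MeasureTheory Filter Topology Set Metric
open scoped ENNReal NNReal

namespace Vale.Agent.P127.Maximal

noncomputable section

/-- Lebesgue measure on the unit interval. -/
abbrev unitI : Measure ℝ := volume.restrict (Icc (0 : ℝ) 1)

/-- The uniform probability measure on `[-δ, δ]`. -/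
def avgM (δ : ℝ) : Measure ℝ :=
  (ENNReal.ofReal (2 * δ))⁻¹ • volume.restrict (Icc (-δ) δ)

instance : IsProbabilityMeasure unitI := ⟨by simp [Real.volume_Icc]⟩

instance (δ : ℝ) : SFinite (avgM δ) := by unfold avgM; infer_instance

lemma isProbabilityMeasure_avgM {δ : ℝ} (hδ : 0 < δ) : IsProbabilityMeasure (avgM δ) := by
  constructor
  rw [avgM, Measure.smul_apply, Measure.restrict_apply_univ, Real.volume_Icc,
    show δ - -δ = 2 * δ by ring, smul_eq_mul, ENNReal.inv_mul_cancel]
  · simp [hδ]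
  · exact ENNReal.ofReal_ne_top

/-- The logarithmic loss. -/
def logLoss (δ : ℝ) : ℝ≥0∞ := ENNReal.ofReal (1 + Real.log δ⁻¹)

lemma logLoss_ne_top (δ : ℝ) : logLoss δ ≠ ⊤ := ENNReal.ofReal_ne_top

lemma one_le_logLoss {δ : ℝ} (hδ : 0 < δ) (hδ1 : δ ≤ 1) : 1 ≤ logLoss δ :=
  ENNReal.one_le_ofReal.2 (by linarith [Real.log_nonneg (one_le_inv_iff₀.2 ⟨hδ, hδ1⟩)])

/-- The kernel `min (1, 4δ/|x|)`. -/
def overlapKer (δ x : ℝ) : ℝ≥0∞ := ENNReal.ofReal (min 1 (4 * δ / |x|))

lemma measurable_overlapKer (δ : ℝ) : Measurable (overlapKer δ) := by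
  unfold overlapKer; fun_prop

lemma lintegral_inv_le {δ : ℝ} (hδ : 0 < δ) (hδ1 : δ ≤ 1) :
    ∫⁻ x in Ioc δ 1, ENNReal.ofReal (4 * δ / x) = ENNReal.ofReal (4 * δ * Real.log δ⁻¹) := by
  have hint : IntervalIntegrable (fun x : ℝ => 4 * δ / x) volume δ 1 := by
    refine ContinuousOn.intervalIntegrable (continuousOn_const.div continuousOn_id fun x hx => ?_)
    rw [uIcc_of_le hδ1] at hx
    exact (hδ.trans_le hx.1).ne'
  rw [← ofReal_integral_eq_lintegral_ofReal hint.1
    (ae_restrict_of_forall_mem measurableSet_Ioc fun x hx => by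
      have := hδ.trans hx.1
      positivity),
    ← intervalIntegral.integral_of_le hδ1]
  congr 1
  simp only [div_eq_mul_inv]
  rw [intervalIntegral.integral_const_mul, integral_inv_of_pos hδ one_pos, one_div]

lemma lintegral_overlapKer_le {δ : ℝ} (hδ : 0 < δ) (hδ1 : δ ≤ 1) (u : ℝ) (hu : u ∈ Icc (0 : ℝ) 1) :
    ∫⁻ w, overlapKer δ (u - w) ∂unitI ≤ ENNReal.ofReal (8 * δ) * logLoss δ := by
  have hlog : 0 ≤ Real.log δ⁻¹ := Real.log_nonneg (one_le_inv_iff₀.2 ⟨hδ, hδ1⟩)
  have h1 : ∫⁻ w, overlapKer δ (u - w) ∂unitI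
      ≤ ∫⁻ x in Icc (-1 : ℝ) 1, overlapKer δ x := by
    rw [← lintegral_indicator measurableSet_Icc (overlapKer δ),
      ← lintegral_sub_left_eq_self ((Icc (-1 : ℝ) 1).indicator (overlapKer δ)) u,
      ← lintegral_indicator measurableSet_Icc]
    refine lintegral_mono fun w => ?_
    by_cases hw : w ∈ Icc (0 : ℝ) 1
    · rw [indicator_of_mem hw, indicator_of_mem]
      exact ⟨by linarith [hu.1, hw.2], by linarith [hu.2, hw.1]⟩
    · rw [indicator_of_notMem hw]; exact zero_le
  have hpos : ∫⁻ x in Ioc (0 : ℝ) 1, overlapKer δ x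
      ≤ ENNReal.ofReal (δ + 4 * δ * Real.log δ⁻¹) := by
    rw [show Ioc (0 : ℝ) 1 = Ioc 0 δ ∪ Ioc δ 1 from (Ioc_union_Ioc_eq_Ioc hδ.le hδ1).symm]
    refine (lintegral_union_le _ _ _).trans ?_
    rw [ENNReal.ofReal_add hδ.le (by positivity)]
    refine add_le_add ?_ ?_
    · calc ∫⁻ x in Ioc (0 : ℝ) δ, overlapKer δ x ≤ ∫⁻ _ in Ioc (0 : ℝ) δ, 1 :=
            lintegral_mono fun x => ENNReal.ofReal_le_one.2 (min_le_left _ _)
        _ = ENNReal.ofReal δ := by simp
    · rw [← lintegral_inv_le hδ hδ1]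
      refine setLIntegral_mono (by fun_prop) fun x hx => ENNReal.ofReal_le_ofReal ?_
      rw [abs_of_pos (hδ.trans hx.1)]
      exact min_le_right _ _
  have hneg : ∫⁻ x in Ico (-1 : ℝ) 0, overlapKer δ x
      ≤ ENNReal.ofReal (δ + 4 * δ * Real.log δ⁻¹) := by
    refine le_of_eq_of_le ?_ hpos
    rw [← lintegral_indicator measurableSet_Ico, ← lintegral_indicator measurableSet_Ioc,
      ← lintegral_neg_eq_self]
    refine lintegral_congr fun x => ?_
    have hk : overlapKer δ (-x) = overlapKer δ x := by simp [overlapKer, abs_neg]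
    by_cases hx : x ∈ Ioc (0 : ℝ) 1
    · rw [indicator_of_mem hx, indicator_of_mem, hk]
      exact ⟨by linarith [hx.2], by linarith [hx.1]⟩
    · rw [indicator_of_notMem hx, indicator_of_notMem]
      exact fun h => hx ⟨by linarith [h.2], by linarith [h.1]⟩
  refine h1.trans ?_
  have hsub : Icc (-1 : ℝ) 1 ⊆ (Ico (-1 : ℝ) 0 ∪ Ioc 0 1) ∪ {0} := by
    intro x hx
    rcases lt_trichotomy x 0 with h | h | h
    · exact Or.inl (Or.inl ⟨hx.1, h⟩)
    · exact Or.inr h
    · exact Or.inl (Or.inr ⟨h, hx.2⟩)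
  refine (lintegral_mono_set hsub).trans ((lintegral_union_le _ _ _).trans ?_)
  rw [setLIntegral_measure_zero _ _ (measure_singleton _), add_zero]
  refine ((lintegral_union_le _ _ _).trans (add_le_add hneg hpos)).trans ?_
  rw [← ENNReal.ofReal_add (by positivity) (by positivity), logLoss,
    ← ENNReal.ofReal_mul (by positivity)]
  refine ENNReal.ofReal_le_ofReal ?_
  nlinarith

lemma volume_affine_window_le {δ : ℝ} (_hδ : 0 < δ) {d : ℝ} (hd : d ≠ 0) (e : ℝ) :
    unitI {t | |t * d + e| ≤ 2 * δ} ≤ overlapKer δ d := by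
  rw [overlapKer, ENNReal.ofReal_min, ENNReal.ofReal_one]
  refine le_min prob_le_one ?_
  refine (Measure.restrict_apply_le _ _).trans ?_
  have hd0 : 0 < |d| := abs_pos.2 hd
  calc volume {t : ℝ | |t * d + e| ≤ 2 * δ}
      ≤ volume (Metric.closedBall (-e / d) (2 * δ / |d|)) := by
        refine measure_mono fun t ht => ?_
        rw [Metric.mem_closedBall, Real.dist_eq, le_div_iff₀ hd0, ← abs_mul]
        have : (t - -e / d) * d = t * d + e := by field_simp; ring
        rw [this]; exact ht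
    _ = ENNReal.ofReal (4 * δ / |d|) := by rw [Real.volume_closedBall]; ring_nf

/-- Smoothed density of the push-forward of the unit interval under `g`. -/
def dens (δ : ℝ) (g : ℝ → ℝ) (y : ℝ) : ℝ≥0∞ :=
  ∫⁻ w, (ENNReal.ofReal (2 * δ))⁻¹ * (Icc (g w - δ) (g w + δ)).indicator 1 y ∂unitI

lemma measurable_window {α : Type*} [MeasurableSpace α] (δ : ℝ) {p q : α → ℝ}
    (hp : Measurable p) (hq : Measurable q) :
    Measurable fun x => (Icc (p x - δ) (p x + δ)).indicator (1 : ℝ → ℝ≥0∞) (q x) := by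
  have h : (fun x => (Icc (p x - δ) (p x + δ)).indicator (1 : ℝ → ℝ≥0∞) (q x))
      = ({x | p x - δ ≤ q x} ∩ {x | q x ≤ p x + δ}).indicator 1 := by
    funext x
    by_cases hx : q x ∈ Icc (p x - δ) (p x + δ)
    · rw [indicator_of_mem hx, indicator_of_mem (show x ∈ {x | p x - δ ≤ q x} ∩ {x | q x ≤ p x + δ} from ⟨hx.1, hx.2⟩)]
      rfl
    · rw [indicator_of_notMem hx, indicator_of_notMem (fun h => hx ⟨h.1, h.2⟩)]
  rw [h]
  exact measurable_const.indicator ((measurableSet_le (hp.sub_const δ) hq).inter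
    (measurableSet_le hq (hp.add_const δ)))

/-- Joint measurability of the density. -/
lemma measurable_dens {α : Type*} [MeasurableSpace α] (δ : ℝ) {G : α → ℝ → ℝ}
    (hG : Measurable fun p : α × ℝ => G p.1 p.2) :
    Measurable fun p : α × ℝ => dens δ (G p.1) p.2 := by
  refine Measurable.lintegral_prod_right' (f := fun q : (α × ℝ) × ℝ =>
    (ENNReal.ofReal (2 * δ))⁻¹ * (Icc (G q.1.1 q.2 - δ) (G q.1.1 q.2 + δ)).indicator 1 q.1.2) ?_
  exact (measurable_window δ (hG.comp (by fun_prop : Measurable fun q : (α × ℝ) × ℝ =>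
    (q.1.1, q.2))) (by fun_prop)).const_mul _

/-- Averaging over the segments is integration against the density. -/
lemma lintegral_avg_eq {δ : ℝ} {g : ℝ → ℝ} (hg : Measurable g) {φ : ℝ → ℝ≥0∞}
    (hφ : Measurable φ) :
    ∫⁻ u, ∫⁻ s, φ (g u + s) ∂(avgM δ) ∂unitI = ∫⁻ y, dens δ g y * φ y := by
  have h1 : ∀ u, ∫⁻ s, φ (g u + s) ∂(avgM δ) =
      ∫⁻ y, (ENNReal.ofReal (2 * δ))⁻¹ * (Icc (g u - δ) (g u + δ)).indicator 1 y * φ y := by
    intro u
    rw [avgM, lintegral_smul_measure, smul_eq_mul, ← lintegral_const_mul]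
    swap; · fun_prop
    rw [← lintegral_indicator measurableSet_Icc]
    conv_rhs => rw [← lintegral_add_left_eq_self _ (g u)]
    refine lintegral_congr fun s => ?_
    by_cases hs : s ∈ Icc (-δ) δ
    · rw [indicator_of_mem hs, indicator_of_mem]
      · simp
      · exact ⟨by linarith [hs.1], by linarith [hs.2]⟩
    · rw [indicator_of_notMem hs, indicator_of_notMem]
      · simp
      · exact fun h => hs ⟨by linarith [h.1], by linarith [h.2]⟩
  simp only [h1]
  rw [lintegral_lintegral_swap]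
  · refine lintegral_congr fun y => ?_
    rw [dens, lintegral_mul_const]
    exact (measurable_window δ hg measurable_const).const_mul _
  · exact (((measurable_window δ (hg.comp measurable_fst) measurable_snd).const_mul _).mul
      (hφ.comp measurable_snd)).aemeasurable

/-- The planar bound: along each segment of the family the densities have integral
`O(1 + log (1/δ))`. -/
theorem lintegral_dens_line_le {δ : ℝ} (hδ : 0 < δ) (hδ1 : δ ≤ 1) {a₁ : ℝ → ℝ}
    (ha : Measurable a₁) {u s : ℝ} (hu : u ∈ Icc (0 : ℝ) 1) (hs : |s| ≤ δ) :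
    ∫⁻ t, dens δ (fun w => t * w + a₁ w) (t * u + a₁ u + s) ∂unitI ≤ 4 * logLoss δ := by
  unfold dens
  rw [lintegral_lintegral_swap]
  swap
  · exact ((measurable_window δ ((measurable_fst.mul measurable_snd).add (ha.comp measurable_snd))
      (((measurable_fst.mul_const u).add_const _).add_const s)).const_mul _).aemeasurable
  have hb : ∀ w ≠ u, ∫⁻ t, (ENNReal.ofReal (2 * δ))⁻¹ *
      (Icc (t * w + a₁ w - δ) (t * w + a₁ w + δ)).indicator 1 (t * u + a₁ u + s) ∂unitI
      ≤ (ENNReal.ofReal (2 * δ))⁻¹ * overlapKer δ (u - w) := by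
    intro w hw
    rw [lintegral_const_mul' _ _ (by simp [hδ])]
    gcongr
    refine le_trans ?_ (volume_affine_window_le hδ (sub_ne_zero.2 hw.symm) (a₁ u - a₁ w))
    have hm : MeasurableSet {t : ℝ | |t * (u - w) + (a₁ u - a₁ w)| ≤ 2 * δ} :=
      measurableSet_le (by fun_prop) measurable_const
    rw [← lintegral_indicator_one hm]
    refine lintegral_mono fun t => ?_
    by_cases h : t * u + a₁ u + s ∈ Icc (t * w + a₁ w - δ) (t * w + a₁ w + δ)
    · have ht : t ∈ {t : ℝ | |t * (u - w) + (a₁ u - a₁ w)| ≤ 2 * δ} := by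
        have hs' := abs_le.1 hs
        rw [Set.mem_ofPred_eq, abs_le]
        constructor <;> nlinarith [h.1, h.2, hs'.1, hs'.2]
      rw [indicator_of_mem h, indicator_of_mem ht]
      exact le_rfl
    · rw [indicator_of_notMem h]; exact zero_le
  calc _ ≤ ∫⁻ w, (ENNReal.ofReal (2 * δ))⁻¹ * overlapKer δ (u - w) ∂unitI := ?_
    _ ≤ (ENNReal.ofReal (2 * δ))⁻¹ * (ENNReal.ofReal (8 * δ) * logLoss δ) := by
      rw [lintegral_const_mul' _ _ (by simp [hδ])]
      gcongr
      exact lintegral_overlapKer_le hδ hδ1 u hu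
    _ = 4 * logLoss δ := by
      rw [← mul_assoc, ← ENNReal.ofReal_inv_of_pos (by positivity),
        ← ENNReal.ofReal_mul (by positivity), show (2 * δ)⁻¹ * (8 * δ) = 4 by field_simp; ring]
      simp
  refine lintegral_mono_ae ?_
  filter_upwards [ae_restrict_of_ae (compl_mem_ae_iff.2 (measure_singleton u))] with w hw
  exact hb w hw

end

end Vale.Agent.P127.Maximal
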