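import Vale.Agent.P127.Triangular

/-!
Kakeya sets with a triangular choice of lines and an arbitrary placement of the segments on them.
-/

open MeasureTheory Filter Topology Set Metric
open scoped ENNReal NNReal

namespace Vale.Agent.P127

theorem ae_dimH_slice_on : ∀ (m : ℕ) (X : Type) [MeasurableSpace X] (μ : Measure X)
    [IsFiniteMeasure μ] (a : X → (Fin m → ℝ) → Fin m → ℝ),
    Measurable (fun p : X × (Fin m → ℝ) => a p.1 p.2) → (∀ x, Triangular (a x)) →
    ∀ E : Set (X × (Fin m → ℝ)), MeasurableSet E → (∀ p ∈ E, p.2 ∈ cube m) →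
    ∀ᵐ t ∂(volume.restrict (Icc (0 : ℝ) 1)), ∀ᵐ x ∂μ, volume {v | (x, v) ∈ E} ≠ 0 →
      (m : ℝ≥0∞) ≤ dimH ((fun v => t • v + a x v) '' {v | (x, v) ∈ E}) := by
  intro m
  induction m with
  | zero => intros; simp
  | succ m ih =>
    intro X _ μ _ a ha htri E hE hEc
    let I : Measure ℝ := volume.restrict (Icc (0 : ℝ) 1)
    haveI : IsFiniteMeasure I := ⟨by simp [I, Real.volume_Icc]⟩
    let a₁ : X → ℝ → ℝ := fun x u => a x (Fin.cons u 0) 0
    have ha₁ : Measurable (fun p : X × ℝ => a₁ p.1 p.2) :=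
      (measurable_pi_apply 0).comp (ha.comp (measurable_fst.prodMk
        (measurable_pi_iff.2 fun i => by
          refine Fin.cases ?_ (fun j => ?_) i
          · exact measurable_snd
          · exact measurable_const)))
    let b : X × ℝ → (Fin m → ℝ) → Fin m → ℝ := fun p v i => a p.1 (Fin.cons p.2 v) i.succ
    have hb : Measurable (fun q : (X × ℝ) × (Fin m → ℝ) => b q.1 q.2) :=
      measurable_pi_iff.2 fun i => (measurable_pi_apply i.succ).comp
        (ha.comp ((measurable_fst.comp measurable_fst).prodMk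
          (measurable_pi_iff.2 fun j => by
            refine Fin.cases ?_ (fun k => ?_) j
            · exact measurable_snd.comp measurable_fst
            · exact (measurable_pi_apply k).comp measurable_snd)))
    have hbtri : ∀ p, Triangular (b p) := fun p v w i hvw =>
      htri p.1 _ _ i.succ fun j hj => by
        induction j using Fin.cases with
        | zero => simp
        | succ k => simpa using hvw k (Fin.succ_le_succ_iff.1 hj)
    have hfirst : ∀ x u v, a x (Fin.cons u v) 0 = a₁ x u := fun x u v =>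
      htri x _ _ 0 fun j hj => by simp [Fin.le_zero_iff.1 hj]
    let E' : Set ((X × ℝ) × (Fin m → ℝ)) :=
      (fun q : (X × ℝ) × (Fin m → ℝ) => (q.1.1, (Fin.cons q.1.2 q.2 : Fin (m + 1) → ℝ))) ⁻¹' E
    have hE' : MeasurableSet E' := hE.preimage ((measurable_fst.comp measurable_fst).prodMk
      (measurable_pi_iff.2 fun j => by
        refine Fin.cases ?_ (fun k => ?_) j
        · exact measurable_snd.comp measurable_fst
        · exact (measurable_pi_apply k).comp measurable_snd))
    have hrest := ih (X × ℝ) (μ.prod I) b hb hbtri E' hE' fun q hq i => by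
      simpa using hEc _ hq i.succ
    -- energy
    have henergy : ∀ α : ℝ≥0, 0 < α → α < 1 → ∀ᵐ t ∂I, ∀ᵐ x ∂μ, ∀ᵐ u ∂I,
        ∫⁻ w, ker α ((t * u + a₁ x u) - (t * w + a₁ x w)) ∂I < ⊤ := by
      intro α h0 h1
      let F : ℝ → X × ℝ × ℝ → ℝ≥0∞ := fun t p =>
        ker α ((t * p.2.1 + a₁ p.1 p.2.1) - (t * p.2.2 + a₁ p.1 p.2.2))
      have hF : Measurable (fun q : ℝ × (X × ℝ × ℝ) => F q.1 q.2) := by
        refine (measurable_ker _).comp (Measurable.sub ?_ ?_)
        · exact (measurable_fst.mul (by fun_prop)).add (ha₁.comp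
            ((measurable_fst.comp measurable_snd).prodMk (by fun_prop)))
        · exact (measurable_fst.mul (by fun_prop)).add (ha₁.comp
            ((measurable_fst.comp measurable_snd).prodMk (by fun_prop)))
      have hFt : ∀ t, Measurable (F t) := fun t => hF.comp measurable_prodMk_left
      have hC := kerConst_ne_top (α := (α : ℝ)) (by exact_mod_cast h0) (by exact_mod_cast h1)
      have hfin : ∫⁻ t, ∫⁻ p, F t p ∂(μ.prod (I.prod I)) ∂I ≠ ⊤ := by
        rw [lintegral_lintegral_swap hF.aemeasurable]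
        have hb1 : ∀ p : X × ℝ × ℝ, ∫⁻ t, F t p ∂I ≤ kerConst α * ker α (p.2.1 - p.2.2) :=
          fun p => by
            refine le_trans (le_of_eq ?_) (lintegral_ker_affine_le (by exact_mod_cast h0) _
              (a₁ p.1 p.2.1 - a₁ p.1 p.2.2))
            refine lintegral_congr fun t => ?_
            simp only [F]; congr 1; ring
        refine ne_top_of_le_ne_top ?_ (lintegral_mono hb1)
        have hk : Measurable (fun p : X × ℝ × ℝ => ker α (p.2.1 - p.2.2)) :=
          (measurable_ker _).comp (by fun_prop)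
        rw [lintegral_const_mul _ hk, lintegral_prod _ hk.aemeasurable]
        refine ENNReal.mul_ne_top hC ?_
        dsimp only
        rw [lintegral_const]
        refine ENNReal.mul_ne_top ?_ (measure_ne_top _ _)
        have hk2 : Measurable (fun q : ℝ × ℝ => ker α (q.1 - q.2)) :=
          (measurable_ker _).comp (by fun_prop)
        rw [lintegral_prod _ hk2.aemeasurable]
        refine ne_top_of_le_ne_top ?_
          (lintegral_mono fun u => lintegral_ker_sub_le (by exact_mod_cast h0) u)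
        rw [lintegral_const]
        exact ENNReal.mul_ne_top hC (measure_ne_top _ _)
      have ht := ae_lt_top (Measurable.lintegral_prod_right' hF) hfin
      filter_upwards [ht] with t ht
      rw [lintegral_prod _ (hFt t).aemeasurable] at ht
      have hx := ae_lt_top (Measurable.lintegral_prod_right' (hFt t)) ht.ne
      filter_upwards [hx] with x hx
      have hm : Measurable (fun q : ℝ × ℝ => F t (x, q)) := (hFt t).comp measurable_prodMk_left
      rw [lintegral_prod _ hm.aemeasurable] at hx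
      exact ae_lt_top (Measurable.lintegral_prod_right' hm) hx.ne
    -- the countably many exponents
    let αs : ℕ → ℝ≥0 := fun k => 1 - 1 / ((k : ℝ≥0) + 2)
    have hα : ∀ k, 0 < αs k ∧ αs k < 1 := fun k => by
      have h2 : (1 : ℝ≥0) / (k + 2) < 1 := by
        rw [div_lt_one (by positivity)]; exact lt_of_lt_of_le one_lt_two le_add_self
      exact ⟨tsub_pos_of_lt h2, tsub_lt_self one_pos (by positivity)⟩
    filter_upwards [hrest, ae_all_iff.2 fun k => henergy (αs k) (hα k).1 (hα k).2] with t ht het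
    filter_upwards [Measure.ae_ae_of_ae_prod ht, ae_all_iff.2 het] with x hx hex hpos
    let Ex : Set (Fin (m + 1) → ℝ) := {v | (x, v) ∈ E}
    let Pos : Set ℝ := {u | volume {v : Fin m → ℝ | ((x, u), v) ∈ E'} ≠ 0}
    have hPos01 : Pos ⊆ Icc (0 : ℝ) 1 := fun u hu => by
      obtain ⟨v, hv⟩ := nonempty_of_measure_ne_zero hu
      simpa using hEc _ hv 0
    have hPos : volume Pos ≠ 0 := fun h0 => hpos (by
      have hEx : MeasurableSet Ex := hE.preimage measurable_prodMk_left
      have hmp := (volume_preserving_piFinSuccAbove (fun _ : Fin (m + 1) => ℝ) 0).symm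
      have e := hmp.measure_preimage hEx.nullMeasurableSet
      refine e.symm.trans ?_
      rw [Measure.volume_eq_prod, Measure.prod_apply (hmp.measurable hEx),
        lintegral_eq_zero_iff (measurable_measure_prodMk_left (hmp.measurable hEx))]
      filter_upwards [measure_eq_zero_iff_ae_notMem.1 h0] with u hu
      simp only [Pi.zero_apply]
      by_contra h
      exact hu (show volume {v : Fin m → ℝ | ((x, u), v) ∈ E'} ≠ 0 by
        simpa [E', Ex, MeasurableEquiv.piFinSuccAbove, Fin.insertNthEquiv, Fin.insertNth_zero', Function.comp_def] using h))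
    let g : ℝ → ℝ := fun u => t * u + a₁ x u
    have hg : Measurable g :=
      (measurable_id.const_mul t).add (ha₁.comp measurable_prodMk_left)
    set Y := (fun v => t • v + a x v) '' {v | (x, v) ∈ E} with hY
    let S : Set (ℝ × (Fin m → ℝ)) := (fun y : Fin (m + 1) → ℝ => (y 0, Fin.tail y)) '' Y
    have hSY : dimH S ≤ dimH Y := by
      refine LipschitzWith.dimH_image_le (K := 1) (LipschitzWith.of_dist_le_mul fun p q => ?_) Y
      rw [NNReal.coe_one, one_mul, Prod.dist_eq]
      exact max_le (dist_le_pi_dist p q 0)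
        ((dist_pi_le_iff dist_nonneg).2 fun i => dist_le_pi_dist p q i.succ)
    refine le_trans ?_ hSY
    have hstep : ∀ k, ((αs k : ℝ≥0) : ℝ≥0∞) + (m : ℝ≥0) ≤ dimH S := by
      intro k
      let Good : Set ℝ :=
        {u | (m : ℝ≥0∞) ≤ dimH ((fun v => t • v + b (x, u) v) '' {v | ((x, u), v) ∈ E'})}
      let P : ℕ → Set ℝ := fun M => Pos ∩
        {u | ∫⁻ w in Icc (0 : ℝ) 1, ker (αs k) (g u - g w) ≤ M}
      obtain ⟨M, hM⟩ : ∃ M, volume (P M ∩ Good) ≠ 0 := by
        by_contra h
        simp only [not_exists, not_not] at h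
        have hcov : ∀ᵐ u ∂I, u ∈ Pos → u ∈ ⋃ M, P M ∩ Good := by
          filter_upwards [hx, hex k] with u hu hu' huP
          obtain ⟨M, hM⟩ := ENNReal.exists_nat_gt hu'.ne
          exact mem_iUnion.2 ⟨M, ⟨huP, hM.le⟩, hu huP⟩
        have h0 : volume (⋃ M, P M ∩ Good) = 0 := measure_iUnion_null h
        refine hPos ?_
        have : I Pos ≤ I (⋃ M, P M ∩ Good) := measure_mono_ae hcov
        rw [Measure.restrict_eq_self _ hPos01] at this
        exact le_zero_iff.1 (this.trans ((Measure.restrict_apply_le _ _).trans h0.le))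
      have hν := map_le_of_potential (α := (αs k : ℝ)) (by exact_mod_cast (hα k).1) hg
        (P := P M) (M := (M : ℝ≥0∞)) (by simp) (fun u hu => hu.2) (inter_subset_left.trans hPos01)
      have hsub : ∀ u ∈ P M,
          (fun v => t • v + b (x, u) v) '' {v | ((x, u), v) ∈ E'} ⊆ {y | (g u, y) ∈ S} := by
        rintro u - _ ⟨v, hv, rfl⟩
        refine ⟨_, ⟨Fin.cons u v, hv, rfl⟩, ?_⟩
        ext
        · simp [g, hfirst]
        · simp [Fin.tail, b]
      refine le_dimH_of_fibres ((volume.restrict (P M)).map g) (by simp) hν S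
        (g '' (P M ∩ Good)) ?_ ?_ ?_
      · refine fun h0 => hM ?_
        have h2 := (Measure.le_map_apply (μ := volume.restrict (P M)) hg.aemeasurable (g '' (P M ∩ Good)))
        rw [h0, le_zero_iff] at h2
        refine measure_mono_null (t := g ⁻¹' (g '' (P M ∩ Good)) ∩ P M)
          (subset_inter (subset_preimage_image g _) inter_subset_left) ?_
        exact le_zero_iff.1 ((Measure.le_restrict_apply _ _).trans h2.le)
      all_goals
        rintro _ ⟨u, ⟨huP, huG⟩, rfl⟩
      · exact ((nonempty_of_measure_ne_zero huP.1).image _).mono (hsub u huP)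
      · simpa using huG.trans (dimH_mono (hsub u huP))
    have hlim : Tendsto (fun k => ((αs k : ℝ≥0) : ℝ≥0∞) + (m : ℝ≥0)) atTop
        (𝓝 (((m + 1 : ℕ) : ℝ≥0∞))) := by
      have h1 : Tendsto αs atTop (𝓝 (1 - 0)) := by
        refine tendsto_const_nhds.sub ?_
        have := (tendsto_const_div_atTop_nhds_zero_nat (1 : ℝ≥0)).comp (tendsto_add_atTop_nat 2)
        exact this.congr fun k => by simp
      rw [tsub_zero] at h1
      have h2 := (ENNReal.tendsto_coe.2 h1).add (tendsto_const_nhds (x := ((m : ℝ≥0) : ℝ≥0∞)))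
      simpa [add_comm] using h2
    exact le_of_tendsto' hlim hstep

/-- A set of dimension below `s` lies in a countable intersection of open sets of dimension at most `s`. -/
lemma exists_open_hull {X : Type*} [EMetricSpace X] [MeasurableSpace X] [BorelSpace X] (K : Set X) {s : ℝ≥0}
    (hs0 : 0 < s) (hs : dimH K < s) :
    ∃ U : ℕ → Set X, (∀ j, IsOpen (U j)) ∧ K ⊆ ⋂ j, U j ∧ dimH (⋂ j, U j) ≤ s := by
  let r : ℕ → ℝ≥0∞ := fun j => ((j : ℝ≥0∞) + 1)⁻¹
  have hr0 : ∀ j, 0 < r j := fun j => ENNReal.inv_pos.2 (by simp)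
  have hr : Tendsto r atTop (𝓝 0) := by
    have := ENNReal.tendsto_inv_nat_nhds_zero.comp (tendsto_add_atTop_nat 1)
    exact this.congr fun j => by simp [r]
  have hK : μH[(s : ℝ)] K = 0 := hausdorffMeasure_of_dimH_lt hs
  have hs' : (0 : ℝ) < s := by exact_mod_cast hs0
  have hcov : ∀ j, ∃ V : ℕ → Set X, (∀ k, IsOpen (V k)) ∧ K ⊆ (⋃ k, V k) ∧
      (∀ k, ediam (V k) ≤ 3 * r j) ∧
      ∑' k, ediam (V k) ^ (s : ℝ) ≤ 2 ^ (s : ℝ) * (2 * r j) := by
    intro j
    have h1 : (⨅ (t : ℕ → Set X) (_ : K ⊆ ⋃ k, t k) (_ : ∀ k, ediam (t k) ≤ r j),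
        ∑' k, ⨆ _ : (t k).Nonempty, ediam (t k) ^ (s : ℝ)) < r j := by
      refine lt_of_le_of_lt ?_ (hr0 j)
      rw [← hK, Measure.hausdorffMeasure_apply]
      exact le_iSup₂ (f := fun (q : ℝ≥0∞) (_ : 0 < q) => ⨅ (t : ℕ → Set X)
        (_ : K ⊆ ⋃ k, t k) (_ : ∀ k, ediam (t k) ≤ q),
        ∑' k, ⨆ _ : (t k).Nonempty, ediam (t k) ^ (s : ℝ)) (r j) (hr0 j)
    simp only [iInf_lt_iff] at h1
    obtain ⟨t, ht, htd, hts⟩ := h1
    obtain ⟨ε', hε', hsum⟩ := ENNReal.exists_pos_sum_of_countable (hr0 j).ne' ℕ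
    -- the radius added around each piece
    let ρ : ℕ → ℝ≥0∞ := fun k => min (r j) ((ε' k : ℝ≥0∞) ^ (1 / (s : ℝ)))
    have hρ0 : ∀ k, 0 < ρ k := fun k => lt_min (hr0 j)
      (ENNReal.rpow_pos (by exact_mod_cast hε' k) ENNReal.coe_ne_top)
    refine ⟨fun k => ⋃ y ∈ t k, eball y (ρ k / 2), fun k => isOpen_biUnion fun y _ => isOpen_eball,
      fun y hy => ?_, ?_⟩
    · obtain ⟨k, hk⟩ := mem_iUnion.1 (ht hy)
      exact mem_iUnion.2 ⟨k, mem_biUnion hk (mem_eball_self (ENNReal.half_pos (hρ0 k).ne'))⟩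
    have hd : ∀ k, ediam (⋃ y ∈ t k, eball y (ρ k / 2)) ≤ ediam (t k) + ρ k := fun k => by
      refine Metric.ediam_le fun p hp q hq => ?_
      obtain ⟨y, hy, hp⟩ := mem_iUnion₂.1 hp
      obtain ⟨z, hz, hq⟩ := mem_iUnion₂.1 hq
      calc edist p q ≤ edist p y + edist y z + edist z q := edist_triangle4 p y z q
        _ ≤ ρ k / 2 + ediam (t k) + ρ k / 2 := by
          rw [edist_comm z q]
          exact add_le_add (add_le_add hp.le (Metric.edist_le_ediam_of_mem hy hz)) hq.le
        _ = ediam (t k) + ρ k := by rw [add_comm (ρ k / 2), add_assoc, ENNReal.add_halves]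
    refine ⟨fun k => (hd k).trans ((add_le_add (htd k) (min_le_left _ _)).trans (by
      rw [← two_mul]; exact mul_le_mul_left (by norm_num) _)), ?_⟩
    have hk : ∀ k, ediam (⋃ y ∈ t k, eball y (ρ k / 2)) ^ (s : ℝ) ≤
        2 ^ (s : ℝ) * ((⨆ _ : (t k).Nonempty, ediam (t k) ^ (s : ℝ)) + ε' k) := fun k => by
      rcases (t k).eq_empty_or_nonempty with h | h
      · simp [h, ENNReal.zero_rpow_of_pos hs']
      rw [iSup_pos h]
      have h2 : ediam (t k) + ρ k ≤ 2 * max (ediam (t k)) (ρ k) := by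
        rw [two_mul]; exact add_le_add (le_max_left _ _) (le_max_right _ _)
      refine (ENNReal.rpow_le_rpow ((hd k).trans h2) hs'.le).trans ?_
      rw [ENNReal.mul_rpow_of_nonneg _ _ hs'.le]
      refine mul_le_mul_right ?_ _
      rcases max_choice (ediam (t k)) (ρ k) with h3 | h3 <;> rw [h3]
      · exact le_self_add
      · refine le_trans ((ENNReal.rpow_le_rpow (min_le_right _ _) hs'.le).trans_eq ?_) le_add_self
        rw [← ENNReal.rpow_mul, one_div_mul_cancel hs'.ne', ENNReal.rpow_one]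
    refine (ENNReal.tsum_le_tsum hk).trans ?_
    rw [ENNReal.tsum_mul_left, ENNReal.tsum_add, two_mul (r j)]
    exact mul_le_mul_right (add_le_add hts.le hsum.le) _
  choose V hVo hKV hVd hVs using hcov
  refine ⟨fun j => ⋃ k, V j k, fun j => isOpen_iUnion (hVo j), subset_iInter hKV, ?_⟩
  have hzero : μH[(s : ℝ)] (⋂ j, ⋃ k, V j k) = 0 := by
    refine le_zero_iff.1 ((Measure.hausdorffMeasure_le_liminf_tsum (l := atTop) (s : ℝ) _ (fun j => 3 * r j) ?_ V
      (Eventually.of_forall hVd) (Eventually.of_forall fun j => iInter_subset _ j)).trans ?_)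
    · simpa using ENNReal.Tendsto.const_mul hr (Or.inr (by simp : (3 : ℝ≥0∞) ≠ ⊤))
    · refine (liminf_le_liminf (Eventually.of_forall hVs)).trans_eq (Tendsto.liminf_eq ?_)
      have h2 : Tendsto (fun j => 2 * r j) atTop (𝓝 0) := by
        simpa using ENNReal.Tendsto.const_mul hr (Or.inr (by simp : (2 : ℝ≥0∞) ≠ ⊤))
      simpa using ENNReal.Tendsto.const_mul h2
        (Or.inr (ENNReal.rpow_ne_top_of_nonneg hs'.le (by simp)) : _ ∨ (2 : ℝ≥0∞) ^ (s : ℝ) ≠ ⊤)
  exact dimH_le_of_hausdorffMeasure_ne_top (by rw [hzero]; exact ENNReal.zero_ne_top)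

/-- **full dimension for any placement of the segments on a triangular family of lines** -/
theorem dimH_eq_of_triangular_lines {m : ℕ}
    (L : (ℝ × (Fin m → ℝ)) ≃L[ℝ] EuclideanSpace ℝ (Fin (m + 1)))
    (a : (Fin m → ℝ) → Fin m → ℝ) (ha : Measurable a) (htri : Triangular a)
    (E : Set (Fin m → ℝ)) (hE : volume E ≠ 0)
    (K : Set (EuclideanSpace ℝ (Fin (m + 1))))
    (hK : ∀ v ∈ E, ∃ p q : ℝ, p < q ∧ ∀ t ∈ Icc p q, L (t, t • v + a v) ∈ K) :
    dimH K = (m + 1 : ℕ) := by
  refine le_antisymm ((dimH_mono (subset_univ K)).trans (by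
    rw [Real.dimH_univ_eq_finrank, finrank_euclideanSpace_fin])) ?_
  by_contra hlt
  rw [not_le] at hlt
  obtain ⟨s, hs1, hs2⟩ := ENNReal.lt_iff_exists_nnreal_btwn.1 hlt
  have hs0 : 0 < s := by exact_mod_cast lt_of_le_of_lt (zero_le : (0 : ℝ≥0∞) ≤ dimH K) hs1
  borelize (EuclideanSpace ℝ (Fin (m + 1)))
  obtain ⟨U, hUo, hKU, hUd⟩ := exists_open_hull K hs0 hs1
  refine absurd ?_ (not_le.2 (lt_of_le_of_lt hUd hs2))
  -- slopes with a segment over a fixed rational interval and a fixed unit cube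
  let F : ℚ × ℚ → Set (Fin m → ℝ) := fun r =>
    {v | ∀ t ∈ Icc (r.1 : ℝ) r.2, L (t, t • v + a v) ∈ ⋂ j, U j}
  have hF : ∀ r, MeasurableSet (F r) := fun r => by
    have hopen : ∀ j, IsOpen {q : (Fin m → ℝ) × (Fin m → ℝ) |
        ∀ t ∈ Icc (r.1 : ℝ) r.2, L (t, t • q.1 + q.2) ∈ U j} := fun j =>
      isOpen_iff_eventually.2 fun q hq =>
        (isCompact_Icc (a := (r.1 : ℝ)) (b := (r.2 : ℝ))).eventually_forall_of_forall_eventually
          fun t ht => (ContinuousAt.tendsto (x := (q, t))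
            (f := fun z : ((Fin m → ℝ) × (Fin m → ℝ)) × ℝ => L (z.2, z.2 • z.1.1 + z.1.2))
            (by fun_prop)).eventually ((hUo j).mem_nhds (hq t ht))
    have : F r = ⋂ j, (fun v => (v, a v)) ⁻¹' {q : (Fin m → ℝ) × (Fin m → ℝ) |
        ∀ t ∈ Icc (r.1 : ℝ) r.2, L (t, t • q.1 + q.2) ∈ U j} := by
      ext v
      simp only [F, mem_iInter, mem_preimage, mem_ofPred_eq]
      exact ⟨fun h j t ht => h t ht j, fun h t ht j => h j t ht⟩
    rw [this]
    exact MeasurableSet.iInter fun j => (hopen j).measurableSet.preimage (measurable_id.prodMk ha)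
  obtain ⟨⟨r, hr⟩, c, hrc⟩ : ∃ (r : {r : ℚ × ℚ // r.1 < r.2}) (c : Fin m → ℤ),
      volume (F r.1 ∩ {v | v - (fun i => (c i : ℝ)) ∈ cube m}) ≠ 0 := by
    by_contra h
    simp only [not_exists, not_not] at h
    refine hE (measure_mono_null (t := ⋃ r : {r : ℚ × ℚ // r.1 < r.2}, ⋃ c : Fin m → ℤ,
      F r.1 ∩ {v | v - (fun i => (c i : ℝ)) ∈ cube m}) (fun v hv => ?_)
      (measure_iUnion_null fun r => measure_iUnion_null fun c => h r c))
    obtain ⟨p, q, hpq, hseg⟩ := hK v hv
    obtain ⟨p', hp1, hp2⟩ := exists_rat_btwn hpq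
    obtain ⟨q', hq1, hq2⟩ := exists_rat_btwn hp2
    refine mem_iUnion₂.2 ⟨⟨(p', q'), Rat.cast_lt.1 hq1⟩, fun i => ⌊v i⌋,
      fun t ht => hKU (hseg t ⟨hp1.le.trans ht.1, ht.2.trans hq2.le⟩), fun i => ?_⟩
    simp only [Pi.sub_apply, mem_Icc, sub_nonneg, sub_le_iff_le_add]
    exact ⟨Int.floor_le _, by linarith [Int.lt_floor_add_one (v i)]⟩
  set cv : Fin m → ℝ := fun i => (c i : ℝ)
  set δ : ℝ := (r.2 : ℝ) - r.1 with hδ
  have hδ0 : 0 < δ := sub_pos.2 (Rat.cast_lt.2 hr)
  let a' : (Fin m → ℝ) → Fin m → ℝ := fun w => δ⁻¹ • ((r.1 : ℝ) • (w + cv) + a (w + cv))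
  let W : Set (Fin m → ℝ) := {w | w + cv ∈ F r} ∩ cube m
  have hWm : MeasurableSet W := (hF r).preimage (measurable_add_const cv) |>.inter (by
    have : cube m = univ.pi fun _ : Fin m => Icc (0 : ℝ) 1 := by
      ext v; simp [cube, Set.pi, forall_and]
    rw [this]; exact MeasurableSet.univ_pi fun _ => measurableSet_Icc)
  have hW0 : volume W ≠ 0 := fun h => hrc (by
    rw [← measure_preimage_add_right volume cv]
    refine measure_mono_null (fun w hw => ?_) h
    obtain ⟨h1, h2⟩ := hw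
    exact ⟨h1, by simpa using h2⟩)
  have ha' : Measurable a' := by
    have := ha.comp (measurable_add_const cv)
    fun_prop
  have htri' : Triangular a' := fun v w i hvw => by
    simp only [a', Pi.smul_apply, Pi.add_apply]
    rw [hvw i le_rfl, htri (v + cv) (w + cv) i fun j hj => by simp [hvw j hj]]
  have hslice := ae_dimH_slice_on m Unit (Measure.dirac ()) (fun _ => a')
    (ha'.comp measurable_snd) (fun _ => htri') (Prod.snd ⁻¹' W) (measurable_snd hWm) fun p hp => hp.2
  -- the affine change of variables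
  let Ψ : ℝ × (Fin m → ℝ) → EuclideanSpace ℝ (Fin (m + 1)) := fun z =>
    L (δ * z.1 + r.1, δ • (z.2 + z.1 • cv))
  obtain ⟨C, hΨ⟩ : ∃ C, AntilipschitzWith C Ψ := by
    let T : (ℝ × (Fin m → ℝ)) →ₗ[ℝ] (ℝ × (Fin m → ℝ)) :=
      { toFun := fun z => (δ * z.1, δ • (z.2 + z.1 • cv))
        map_add' := fun z w => by
          refine Prod.ext ?_ (funext fun i => ?_) <;> simp <;> ring
        map_smul' := fun k z => by
          refine Prod.ext ?_ (funext fun i => ?_) <;> simp <;> ring }
    have hinj : Function.Injective T := fun z w h => by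
      obtain ⟨h1, h2⟩ := Prod.ext_iff.1 h
      have e1 : z.1 = w.1 := mul_left_cancel₀ hδ0.ne' h1
      have e2 := smul_right_injective (Fin m → ℝ) hδ0.ne' h2
      rw [e1] at e2
      exact Prod.ext e1 (add_right_cancel e2)
    obtain ⟨C, -, hC⟩ := (L.toLinearEquiv.toLinearMap ∘ₗ T).exists_antilipschitzWith
      (LinearMap.ker_eq_bot.2 (L.injective.comp hinj))
    refine ⟨C, fun z w => (hC z w).trans_eq ?_⟩
    congr 1
    have e : ∀ z, Ψ z = L (T z) + L ((r.1 : ℝ), 0) := fun z => by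
      rw [← map_add]; simp [Ψ, T]
    rw [e, e, edist_add_right]
    rfl
  let G : Set ℝ := {t | t ∈ Icc (0 : ℝ) 1 ∧ (m : ℝ≥0∞) ≤ dimH ((fun v => t • v + a' v) '' W)}
  have hG : volume.restrict (Icc (0 : ℝ) 1) G ≠ 0 := by
    intro h0
    have h2 : ∀ᵐ t ∂(volume.restrict (Icc (0 : ℝ) 1)), False := by
      filter_upwards [hslice, ae_restrict_mem measurableSet_Icc, measure_eq_zero_iff_ae_notMem.1 h0]
        with t ht htI hn
      refine hn ⟨htI, ?_⟩
      simp only [ae_dirac_eq, eventually_pure] at ht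
      exact ht (by simpa using hW0)
    rw [eventually_false_iff_eq_bot, ae_eq_bot] at h2
    simpa [Real.volume_Icc] using congrArg (fun μ : Measure ℝ => μ univ) h2
  let S : Set (ℝ × (Fin m → ℝ)) := Ψ ⁻¹' (⋂ j, U j)
  have hsub : ∀ t ∈ G, (fun v => t • v + a' v) '' W ⊆ {y | (t, y) ∈ S} := by
    rintro t ⟨ht, -⟩ _ ⟨w, hw, rfl⟩
    have h := hw.1 (δ * t + r.1) ⟨by nlinarith [ht.1], by nlinarith [ht.2]⟩
    show L (δ * t + r.1, δ • (t • w + a' w + t • cv)) ∈ ⋂ j, U j
    convert h using 3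
    refine funext fun i => ?_
    simp only [a', Pi.add_apply, Pi.smul_apply, smul_eq_mul]
    field_simp
    ring
  have hν : ∀ V : Set ℝ, volume.restrict (Icc (0 : ℝ) 1) V ≤ 1 * ediam V ^ ((1 : ℝ≥0) : ℝ) :=
    fun V => by
      rw [one_mul, NNReal.coe_one, ENNReal.rpow_one]
      exact (Measure.restrict_apply_le _ _).trans (Real.volume_le_diam V)
  have h := le_dimH_of_fibres (volume.restrict (Icc (0 : ℝ) 1)) (α := 1) (β := (m : ℝ≥0))
    ENNReal.one_ne_top hν S G hG
    (fun t ht => ((nonempty_of_measure_ne_zero hW0).image _).mono (hsub t ht))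
    (fun t ht => by simpa using ht.2.trans (dimH_mono (hsub t ht)))
  refine le_trans ?_ (hΨ.dimH_preimage_le _)
  simpa [add_comm] using h

end Vale.Agent.P127
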