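import Mathlib

/-!
Lower bounds for the Hausdorff dimension of subsets of `ℝ × E` from their fibres.
-/

open MeasureTheory Filter Topology Set Metric
open scoped ENNReal NNReal

namespace Vale.Agent.P127

variable {E : Type*} [EMetricSpace E] [MeasurableSpace E] [BorelSpace E]

/-- A slicing inequality: if the fibres over `G` have `b`-dimensional measure at least one and
`ν` is `α`-dimensional, then `ν G ≤ M * μH[α + b] S`. -/
theorem measure_le_hausdorffMeasure_of_fibres [MeasurableSpace (ℝ × E)] [BorelSpace (ℝ × E)]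
    (ν : Measure ℝ) {α b : ℝ} (hα : 0 ≤ α) (hb : 0 ≤ b) {M : ℝ≥0∞} (hM : M ≠ ⊤)
    (hν : ∀ U : Set ℝ, ν U ≤ M * ediam U ^ α) (S : Set (ℝ × E)) (G : Set ℝ)
    (hfib : ∀ x ∈ G, 1 ≤ μH[b] {y | (x, y) ∈ S}) :
    ν G ≤ M * μH[α + b] S := by
  rcases eq_or_ne (μH[α + b] S) ⊤ with hH | hH
  · rcases eq_or_ne M 0 with hM0 | hM0
    · have := hν G
      simpa [hM0] using this
    · rw [hH, ENNReal.mul_top hM0]; exact le_top
  set H := μH[α + b] S with hHdef
  let r : ℕ → ℝ≥0∞ := fun j => ((j : ℝ≥0∞) + 1)⁻¹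
  have hr0 : ∀ j, 0 < r j := fun j => ENNReal.inv_pos.2 (by simp)
  have hr : Tendsto r atTop (𝓝 0) := by
    have := ENNReal.tendsto_inv_nat_nhds_zero.comp (tendsto_add_atTop_nat 1)
    exact this.congr fun j => by simp [r]
  have hcov : ∀ j, ∃ t : ℕ → Set (ℝ × E), S ⊆ (⋃ k, t k) ∧ (∀ k, ediam (t k) ≤ r j) ∧
      ∑' k, (⨆ _ : (t k).Nonempty, ediam (t k) ^ (α + b)) ≤ H + r j := by
    intro j
    have h1 : (⨅ (t : ℕ → Set (ℝ × E)) (_ : S ⊆ ⋃ k, t k) (_ : ∀ k, ediam (t k) ≤ r j),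
        ∑' k, ⨆ _ : (t k).Nonempty, ediam (t k) ^ (α + b)) < H + r j := by
      refine lt_of_le_of_lt ?_ (ENNReal.lt_add_right hH (hr0 j).ne')
      rw [hHdef, Measure.hausdorffMeasure_apply]
      exact le_iSup₂ (f := fun (q : ℝ≥0∞) (_ : 0 < q) => ⨅ (t : ℕ → Set (ℝ × E))
        (_ : S ⊆ ⋃ k, t k) (_ : ∀ k, ediam (t k) ≤ q),
        ∑' k, ⨆ _ : (t k).Nonempty, ediam (t k) ^ (α + b)) (r j) (hr0 j)
    simp only [iInf_lt_iff] at h1
    obtain ⟨t, h2, h3, h4⟩ := h1
    exact ⟨t, h2, h3, h4.le⟩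
  choose t ht hd hsum using hcov
  let V : ℕ → ℕ → Set ℝ := fun j k => closure (Prod.fst '' t j k)
  let c : ℕ → ℕ → ℝ≥0∞ := fun j k => ediam (t j k) ^ b
  let h : ℕ → ℝ → ℝ≥0∞ := fun j x => ∑' k, (V j k).indicator (fun _ => c j k) x
  have hmeas : ∀ j, Measurable (h j) := fun j =>
    Measurable.tsum fun k => measurable_const.indicator isClosed_closure.measurableSet
  have hint : ∀ j, ∫⁻ x, h j x ∂ν ≤ M * (H + r j) := by
    intro j
    simp only [h]
    rw [lintegral_tsum fun k =>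
      (measurable_const.indicator isClosed_closure.measurableSet).aemeasurable]
    refine le_trans ?_ (mul_le_mul_right (hsum j) M)
    rw [← ENNReal.tsum_mul_left]
    refine ENNReal.tsum_le_tsum fun k => ?_
    rw [lintegral_indicator isClosed_closure.measurableSet, setLIntegral_const]
    by_cases hne : (t j k).Nonempty
    · rw [iSup_pos hne, ENNReal.rpow_add_of_nonneg _ _ hα hb, ← mul_assoc, mul_comm]
      gcongr
      refine (hν _).trans ?_
      gcongr
      rw [Metric.ediam_closure]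
      simpa using (LipschitzWith.prod_fst (α := ℝ) (β := E)).ediam_image_le (t j k)
    · simp [V, Set.not_nonempty_iff_eq_empty.1 hne]
  have hlow : ∀ x ∈ G, 1 ≤ liminf (fun j => h j x) atTop := by
    intro x hx
    refine (hfib x hx).trans ?_
    let T : ∀ j, {k : ℕ // {y | (x, y) ∈ t j k}.Nonempty} → Set E :=
      fun j k => {y | (x, y) ∈ t j k.1}
    have hTd : ∀ j k, ediam (T j k) ≤ ediam (t j k.1) := fun j k => by
      refine Metric.ediam_le fun p hp q hq => ?_
      refine le_trans ?_ (Metric.edist_le_ediam_of_mem (x := (x, p)) (y := (x, q)) hp hq)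
      simp [Prod.edist_eq]
    refine (Measure.hausdorffMeasure_le_liminf_tsum b _ r hr T
      (Eventually.of_forall fun j k => (hTd j k).trans (hd j k.1))
      (Eventually.of_forall fun j y hy => ?_)).trans ?_
    · obtain ⟨k, hk⟩ := mem_iUnion.1 (ht j hy)
      exact mem_iUnion.2 ⟨⟨k, ⟨y, hk⟩⟩, hk⟩
    · refine liminf_le_liminf (Eventually.of_forall fun j => ?_)
      refine le_trans (ENNReal.tsum_le_tsum (g := fun k : {k : ℕ // _} =>
        (V j k.1).indicator (fun _ => c j k.1) x) fun k => ?_)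
        (ENNReal.tsum_comp_le_tsum_of_injective Subtype.val_injective
          fun k => (V j k).indicator (fun _ => c j k) x)
      obtain ⟨y, hy⟩ := k.2
      have hmem : x ∈ V j k.1 := subset_closure ⟨(x, y), hy, rfl⟩
      rw [indicator_of_mem hmem]
      exact ENNReal.rpow_le_rpow (hTd j k) hb
  have hlim : Tendsto (fun j => M * (H + r j)) atTop (𝓝 (M * H)) := by
    have := ENNReal.Tendsto.const_mul (tendsto_const_nhds (x := H) |>.add hr) (Or.inr hM)
    simpa using this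
  calc ν G ≤ ν {x | 1 ≤ liminf (fun j => h j x) atTop} := measure_mono hlow
    _ ≤ ∫⁻ x, liminf (fun j => h j x) atTop ∂ν := by
      simpa using mul_meas_ge_le_lintegral (μ := ν) (Measurable.liminf hmeas) 1
    _ ≤ liminf (fun j => ∫⁻ x, h j x ∂ν) atTop := lintegral_liminf_le hmeas
    _ ≤ liminf (fun j => M * (H + r j)) atTop := liminf_le_liminf (Eventually.of_forall hint)
    _ = M * H := hlim.liminf_eq

/-- If every fibre over a set of positive `α`-dimensional measure has dimension at least `β`, then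
the dimension of the set is at least `α + β`. -/
theorem le_dimH_of_fibres (ν : Measure ℝ) {α β : ℝ≥0} {M : ℝ≥0∞} (hM : M ≠ ⊤)
    (hν : ∀ U : Set ℝ, ν U ≤ M * ediam U ^ (α : ℝ)) (S : Set (ℝ × E)) (G : Set ℝ)
    (hG : ν G ≠ 0) (hne : ∀ x ∈ G, {y | (x, y) ∈ S}.Nonempty)
    (hfib : ∀ x ∈ G, (β : ℝ≥0∞) ≤ dimH {y | (x, y) ∈ S}) :
    (α : ℝ≥0∞) + β ≤ dimH S := by
  borelize (ℝ × E)
  have key : ∀ b : ℝ≥0, (∀ x ∈ G, 1 ≤ μH[(b : ℝ)] {y | (x, y) ∈ S}) →
      ((α + b : ℝ≥0) : ℝ≥0∞) ≤ dimH S := by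
    intro b hb
    apply le_dimH_of_hausdorffMeasure_ne_zero
    intro h0
    have := measure_le_hausdorffMeasure_of_fibres ν α.2 b.2 hM hν S G hb
    rw [NNReal.coe_add] at h0
    exact hG (le_zero_iff.1 (by simpa [h0] using this))
  rcases eq_or_ne β 0 with rfl | hβ
  · refine (le_of_eq ?_).trans (key 0 fun x hx => ?_)
    · simp
    · obtain ⟨y, hy⟩ := hne x hx
      calc (1 : ℝ≥0∞) = μH[((0 : ℝ≥0) : ℝ)] ({y} : Set E) := by simp
        _ ≤ _ := measure_mono (singleton_subset_iff.2 hy)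
  · rw [← ENNReal.coe_add]
    refine le_of_forall_lt fun c hc => ?_
    obtain ⟨c, rfl⟩ : ∃ c' : ℝ≥0, (c' : ℝ≥0∞) = c :=
      ⟨c.toNNReal, ENNReal.coe_toNNReal (ne_top_of_lt hc)⟩
    rw [ENNReal.coe_lt_coe] at hc
    obtain ⟨b, hb1, hb2⟩ : ∃ b, c < α + b ∧ b < β := by
      rcases lt_or_ge c α with h | h
      · exact ⟨0, by simpa using h, pos_iff_ne_zero.2 hβ⟩
      · obtain ⟨b, h1, h2⟩ := exists_between (show c - α < β from by
          rw [tsub_lt_iff_left h]; exact hc)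
        exact ⟨b, (tsub_lt_iff_left h).1 h1, h2⟩
    refine lt_of_lt_of_le (ENNReal.coe_lt_coe.2 hb1) (key b fun x hx => ?_)
    rw [hausdorffMeasure_of_lt_dimH (lt_of_lt_of_le (ENNReal.coe_lt_coe.2 hb2) (hfib x hx))]
    exact le_top

end Vale.Agent.P127
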